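import Vale.Agent.P141.H606.Fib

/-!
# P141, line W, end lemma (E-AG): the square function on a region

`tree_reg`: the square function of `tree_bessel` for a function which vanishes off the used cells
`V k`: all error terms are sums over the used cells.
`gd2_total`: the sum of the Gram terms over all cells.
`fib_reg`: the sum over the boxes of one fibre, region form.
-/

namespace Vale.Agent.P141.H606

open Finset Vale.Agent.P141.PL.H315 Vale.Agent.P141.H337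

noncomputable section

variable {Ω : Type*} [Fintype Ω]

theorem div2 (b : ℤ) : (2 * b) / 2 = b ∧ (2 * b + 1) / 2 = b := by omega

/-- The children are cells. -/
theorem cel_child {K : ℕ} {b0 : ℤ} {k : ℕ} (hk : k < K) {b : ℤ} (hb : b ∈ cel K b0 (k + 1)) :
    2 * b ∈ cel K b0 k ∧ 2 * b + 1 ∈ cel K b0 k := by
  unfold cel at hb ⊢
  have e1 : K - k = (K - (k + 1)) + 1 := by omega
  rw [mem_Ico] at hb
  rw [e1, pow_succ, mem_Ico, mem_Ico]
  refine ⟨⟨?_, ?_⟩, ⟨?_, ?_⟩⟩ <;> nlinarith [hb.1, hb.2]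

/-- The parent is a cell. -/
theorem cel_parent {K : ℕ} {b0 : ℤ} {k : ℕ} (hk : k < K) {b : ℤ} (hb : b ∈ cel K b0 k) :
    b / 2 ∈ cel K b0 (k + 1) := by
  unfold cel at hb ⊢
  have e1 : K - k = (K - (k + 1)) + 1 := by omega
  rw [e1, pow_succ, mem_Ico] at hb
  rw [mem_Ico]
  constructor
  · rw [Int.le_ediv_iff_mul_le (by norm_num)]; nlinarith [hb.1]
  · rw [Int.ediv_lt_iff_lt_mul (by norm_num)]; nlinarith [hb.2]

/-- The Gram energy over the whole tree. -/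
def GT [DecidableEq Ω] (c : Ω → ℤ → ℝ) (A : ℕ → ℤ → Finset Ω) (h : ℕ → ℤ → ℝ) (K : ℕ)
    (b0 : ℤ) : ℝ :=
  ∑ k ∈ range K, ∑ b ∈ cel K b0 (k + 1),
    2 ^ k * (2 * gd2 (cr (A (k + 1) b) c) (ivm (k + 1) b) (h (k + 1)))

/-- **The sum of the Gram terms over all cells.** -/
theorem gd2_total [DecidableEq Ω] {L : ℝ} (c : Ω → ℤ → ℝ) (A : ℕ → ℤ → Finset Ω)
    (h : ℕ → ℤ → ℝ) {K : ℕ} {b0 : ℤ}
    (hh : ∀ k < K, ∀ b ∈ cel K b0 (k + 1), (∀ x ∈ ivm k (2 * b), h (k + 1) x = 1) ∧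
      ∀ x ∈ ivm k (2 * b + 1), h (k + 1) x = -1)
    (hL : ∀ b ∈ cel K b0 0, ms c (A 0 b) (ivm 0 b) ≤ L)
    (hL' : ∀ k < K, ∀ b ∈ cel K b0 k, ms c (A (k + 1) (b / 2)) (ivm k b) ≤ L) :
    GT c A h K b0 ≤ 2 ^ K * L ^ 2 + 2 * L * DR c A K b0 := by
  set U2 : ℕ → ℤ → ℝ := fun k b => Gm (cr (A k b) c) (ivm k b) with hU2
  have hG : ∀ k < K, ∀ b ∈ cel K b0 (k + 1),
      2 * gd2 (cr (A (k + 1) b) c) (ivm (k + 1) b) (h (k + 1)) ≤
      (U2 k (2 * b) + 2 * L * dm c A k (2 * b)) +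
        (U2 k (2 * b + 1) + 2 * L * dm c A k (2 * b + 1)) - 2 * U2 (k + 1) b := by
    intro k hk b hb
    have H := halves k b (hh k hk b hb).1 (hh k hk b hb).2
    rw [gd2_eq _ H]
    have h1 : ∀ b' ∈ cel K b0 k, b' / 2 = b →
        Gm (cr (A (k + 1) b) c) (ivm k b') ≤ U2 k b' + 2 * L * dm c A k b' := by
      intro b' hb' e
      have h2 := Gm_drop c (A (k + 1) b) (A (k + 1) b \ A k b') (ivm k b')
      have h3 : A (k + 1) b \ (A (k + 1) b \ A k b') ⊆ A k b' := by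
        intro i hi; simp only [mem_sdiff] at hi; tauto
      have h4 := Gm_mono c h3 (ivm k b')
      have h5 : A (k + 1) b ∩ (A (k + 1) b \ A k b') = A (k + 1) b \ A k b' := by
        ext i; simp only [mem_inter, mem_sdiff]; tauto
      rw [h5] at h2
      have h6 := hL' k hk b' hb'
      rw [e] at h6
      have h7 : dm c A k b' = ms c (A (k + 1) b \ A k b') (ivm k b') := by unfold dm; rw [e]
      rw [h7]
      have h8 := ms_nonneg c (A (k + 1) b \ A k b') (ivm k b')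
      calc _ ≤ Gm (cr (A k b') c) (ivm k b') +
            2 * ms c (A (k + 1) b \ A k b') (ivm k b') * ms c (A (k + 1) b) (ivm k b') := by
              linarith
        _ ≤ _ := by
              have := mul_le_mul_of_nonneg_left h6 h8
              simp only [hU2]; linarith
    have c1 := h1 _ (cel_child hk hb).1 (div2 b).1
    have c2 := h1 _ (cel_child hk hb).2 (div2 b).2
    simp only [hU2] at c1 c2 ⊢
    linarith
  unfold GT
  refine (tele U2 (fun k b => 2 * L * dm c A k b) (fun k b =>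
    2 * gd2 (cr (A k b) c) (ivm k b) (h k)) hG (fun b => Gm_nonneg _ _)).trans ?_
  refine add_le_add ?_ (le_of_eq ?_)
  · have h1 : ∀ b ∈ cel K b0 0, U2 0 b ≤ L ^ 2 := fun b hb =>
      (Gm_le c _ _).trans (pow_le_pow_left₀ (ms_nonneg _ _ _) (hL b hb) 2)
    refine (sum_le_card_nsmul _ _ _ h1).trans (le_of_eq ?_)
    have := card_cel (K := K) (b0 := b0) (Nat.zero_le K)
    rw [pow_zero, one_mul] at this
    rw [nsmul_eq_mul, this]
  · unfold DR
    rw [mul_sum]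
    refine sum_congr rfl fun k _ => ?_
    rw [mul_sum]
    exact sum_congr rfl fun b _ => by ring

/-- The used leaves. -/
def LV (V : ℕ → Finset ℤ) (K : ℕ) (b0 : ℤ) : ℝ := ((cel K b0 0).filter (· ∈ V 0)).card

/-- The dropped mass at the used cells. -/
def DRV [DecidableEq Ω] (c : Ω → ℤ → ℝ) (A : ℕ → ℤ → Finset Ω) (V : ℕ → Finset ℤ) (K : ℕ)
    (b0 : ℤ) : ℝ :=
  ∑ k ∈ range K, ∑ b ∈ (cel K b0 k).filter (· ∈ V k), 2 ^ k * dm c A k b

/-- The Gram terms at the used cells. -/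
def GTV [DecidableEq Ω] (c : Ω → ℤ → ℝ) (A : ℕ → ℤ → Finset Ω) (h : ℕ → ℤ → ℝ)
    (V : ℕ → Finset ℤ) (K : ℕ) (b0 : ℤ) : ℝ :=
  ∑ k ∈ range K, ∑ b ∈ (cel K b0 (k + 1)).filter (· ∈ V (k + 1)),
    2 ^ k * (2 * gd2 (cr (A (k + 1) b) c) (ivm (k + 1) b) (h (k + 1)))

/-- The bound of the region form. -/
def TV (ε e L l t d g : ℝ) : ℝ := e * (l + t + (1 + L / ε) / ε * d + 2 * (ε ^ 2)⁻¹ * g)

/-- The hypotheses of the region form for one variable. -/
structure Reg1 [DecidableEq Ω] (e L : ℝ) (c : Ω → ℤ → ℝ) (A : ℕ → ℤ → Finset Ω)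
    (X h : ℕ → ℤ → ℝ) (K : ℕ) (b0 : ℤ) (V T : ℕ → Finset ℤ) : Prop where
  e0 : 0 ≤ e
  L0 : 0 ≤ L
  hh : ∀ k < K, ∀ b ∈ cel K b0 (k + 1), (∀ x ∈ ivm k (2 * b), h (k + 1) x = 1) ∧
    ∀ x ∈ ivm k (2 * b + 1), h (k + 1) x = -1
  off : ∀ k ≤ K, ∀ b ∈ cel K b0 k, b ∉ V k → ∀ x ∈ ivm k b, X k x = 0
  hX : ∀ k ≤ K, ∀ b ∈ cel K b0 k, b ∈ V k → avg (ivm k b) (fun x => X k x ^ 2) ≤ e
  hX' : ∀ k < K, ∀ b ∈ cel K b0 k, avg (ivm k b) (fun x => X (k + 1) x ^ 2) ≤ e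
  hT : ∀ k < K, ∀ b ∈ cel K b0 k, b ∉ T k → ∀ x ∈ ivm k b, X (k + 1) x = X k x
  hL : ∀ k < K, ∀ b ∈ cel K b0 (k + 1), b ∈ V (k + 1) → ms c (A (k + 1) b) (ivm (k + 1) b) ≤ L
  hL' : ∀ k < K, ∀ b ∈ cel K b0 k, b ∈ V k → b ∉ T k → ms c (A (k + 1) (b / 2)) (ivm k b) ≤ L

theorem avg_sq_zero {J : Finset ℤ} {X : ℤ → ℝ} (h : ∀ x ∈ J, X x = 0) :
    avg J (fun x => X x ^ 2) = 0 := by
  rw [avg_congr (g := fun _ => (0 : ℝ)) fun x hx => by rw [h x hx]; ring]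
  unfold avg; simp

omit [Fintype Ω] in
theorem Reg1.en [DecidableEq Ω] {e L : ℝ} {c : Ω → ℤ → ℝ}
    {A : ℕ → ℤ → Finset Ω} {X h : ℕ → ℤ → ℝ} {K : ℕ} {b0 : ℤ} {V T : ℕ → Finset ℤ}
    (H : Reg1 e L c A X h K b0 V T) {k : ℕ} (hk : k ≤ K) {b : ℤ} (hb : b ∈ cel K b0 k) :
    avg (ivm k b) (fun x => X k x ^ 2) ≤ if b ∈ V k then e else 0 := by
  split_ifs with h1
  · exact H.hX k hk b hb h1
  · rw [avg_sq_zero (H.off k hk b hb h1)]

/-- **The square function on a region.** -/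
theorem tree_reg [DecidableEq Ω] {ε e L : ℝ} (hε : 0 < ε) {c : Ω → ℤ → ℝ}
    {A : ℕ → ℤ → Finset Ω} {X h : ℕ → ℤ → ℝ} {K : ℕ} {b0 : ℤ} {V T : ℕ → Finset ℤ}
    (H : Reg1 e L c A X h K b0 V T) :
    ∑ k ∈ range K, ∑ b ∈ cel K b0 (k + 1),
      2 ^ k * Rg ε (cr (A (k + 1) b) c) (fun x => h (k + 1) x * X (k + 1) x) (ivm (k + 1) b) ≤
      TV ε e L (LV V K b0) (TC T K b0) (DRV c A V K b0) (GTV c A h V K b0) := by
  have he := H.e0
  have hLn := H.L0
  have dm0 : ∀ k b, 0 ≤ dm c A k b := fun k b => ms_nonneg _ _ _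
  set U1 : ℕ → ℤ → ℝ := fun k b => Rg ε (cr (A k b) c) (X k) (ivm k b) with hU1
  set err : ℕ → ℤ → ℝ := fun k b =>
    (if b ∈ T k then e else 0) +
      (if b ∈ V k then e * ((1 + L / ε) / ε * dm c A k b) else 0) with herr
  set g : ℕ → ℤ → ℝ := fun k b =>
    Rg ε (cr (A k b) c) (fun x => h k x * X k x) (ivm k b) -
      (if b ∈ V k then 4 * (ε ^ 2)⁻¹ * gd2 (cr (A k b) c) (ivm k b) (h k) * e else 0) with hg
  have hR : ∀ k < K, ∀ b ∈ cel K b0 (k + 1), g (k + 1) b ≤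
      (U1 k (2 * b) + err k (2 * b)) + (U1 k (2 * b + 1) + err k (2 * b + 1)) -
        2 * U1 (k + 1) b := by
    intro k hk b hb
    have Hh := halves k b (H.hh k hk b hb).1 (H.hh k hk b hb).2
    have hs := split hε (cr (A (k + 1) b) c) (X (k + 1)) Hh
    have h1 : ∀ b' ∈ cel K b0 k, b' / 2 = b →
        Rg ε (cr (A (k + 1) b) c) (X (k + 1)) (ivm k b') ≤ U1 k b' + err k b' := by
      intro b' hb' ed
      have hm0 := dm0 k b'
      have hU0 : 0 ≤ U1 k b' := Rg_nonneg hε _ _ _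
      have hp : 0 ≤ e * ((1 + L / ε) / ε * dm c A k b') := by positivity
      by_cases hT' : b' ∈ T k
      · have h2 := (Rg_le_energy hε (cr (A (k + 1) b) c) (X (k + 1)) (ivm k b')).trans
          (H.hX' k hk b' hb')
        simp only [herr, if_pos hT']
        split_ifs <;> linarith
      · have h2 : Rg ε (cr (A (k + 1) b) c) (X (k + 1)) (ivm k b') =
            Rg ε (cr (A (k + 1) b) c) (X k) (ivm k b') :=
          Rg_congr hε _ (H.hT k hk b' hb' hT')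
        rw [h2]
        have h3 := Rg_drop hε c (X k) (ivm k b') (A (k + 1) b) (A (k + 1) b \ A k b')
        have h4 : A (k + 1) b \ (A (k + 1) b \ A k b') ⊆ A k b' := by
          intro i hi; simp only [mem_sdiff] at hi; tauto
        have h5 := Rg_mono hε c (X k) (ivm k b') h4
        have h6 : A (k + 1) b ∩ (A (k + 1) b \ A k b') = A (k + 1) b \ A k b' := by
          ext i; simp only [mem_inter, mem_sdiff]; tauto
        have h7 : ms c (A (k + 1) b \ A k b') (ivm k b') = dm c A k b' := by unfold dm; rw [ed]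
        rw [h6, h7] at h3
        by_cases hV : b' ∈ V k
        · have h8 : dm c A k b' ≤ L := by
            have h9 := H.hL' k hk b' hb' hV hT'
            refine le_trans ?_ h9
            unfold dm ms
            exact sum_le_sum_of_subset_of_nonneg sdiff_subset fun _ _ _ =>
              avg_nonneg fun _ _ => sq_nonneg _
          have h9 : dm c A k b' / ε + (dm c A k b' / ε) ^ 2 ≤ (1 + L / ε) / ε * dm c A k b' := by
            have h10 : (dm c A k b' / ε) ^ 2 ≤ L / ε * (dm c A k b' / ε) := by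
              rw [sq]
              exact mul_le_mul_of_nonneg_right (div_le_div_of_nonneg_right h8 hε.le)
                (by positivity)
            calc dm c A k b' / ε + (dm c A k b' / ε) ^ 2
                ≤ dm c A k b' / ε + L / ε * (dm c A k b' / ε) := by linarith
              _ = _ := by ring
          have h10 : avg (ivm k b') (fun x => X k x ^ 2) *
              (dm c A k b' / ε + (dm c A k b' / ε) ^ 2) ≤ e * ((1 + L / ε) / ε * dm c A k b') :=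
            mul_le_mul (H.hX k hk.le b' hb' hV) h9 (by positivity) he
          simp only [herr, if_neg hT', if_pos hV, zero_add, hU1]
          linarith
        · have h10 : avg (ivm k b') (fun x => X k x ^ 2) = 0 :=
            avg_sq_zero (H.off k hk.le b' hb' hV)
          rw [h10, zero_mul, add_zero] at h3
          simp only [herr, if_neg hT', if_neg hV, zero_add, add_zero, hU1]
          linarith
    have c1 := h1 _ (cel_child hk hb).1 (div2 b).1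
    have c2 := h1 _ (cel_child hk hb).2 (div2 b).2
    have h2 : Rg ε (cr (A (k + 1) b) c) (X (k + 1)) (ivm (k + 1) b) ≤
        if b ∈ V (k + 1) then e else 0 :=
      (Rg_le_energy hε _ _ _).trans (H.en (by omega) hb)
    have h3 : 0 ≤ 4 * (ε ^ 2)⁻¹ * gd2 (cr (A (k + 1) b) c) (ivm (k + 1) b) (h (k + 1)) :=
      mul_nonneg (by positivity) (gd2_nonneg _ _ _)
    have h4 := mul_le_mul_of_nonneg_left h2 h3
    simp only [hg, hU1] at c1 c2 ⊢
    by_cases hV : b ∈ V (k + 1)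
    · simp only [if_pos hV] at h4 ⊢
      linarith
    · simp only [if_neg hV, mul_zero] at h4 ⊢
      linarith
  have hRsum := tele U1 err g hR (fun b => Rg_nonneg hε _ _ _)
  have h1 : ∑ b ∈ cel K b0 0, U1 0 b ≤ e * LV V K b0 := by
    have h1 : ∀ b ∈ cel K b0 0, U1 0 b ≤ if b ∈ V 0 then e else 0 := fun b hb =>
      (Rg_le_energy hε _ _ _).trans (H.en (Nat.zero_le _) hb)
    refine (sum_le_sum h1).trans (le_of_eq ?_)
    rw [← sum_filter, sum_const, nsmul_eq_mul, LV, mul_comm]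
  have h2 : ∑ k ∈ range K, ∑ b ∈ cel K b0 k, 2 ^ k * err k b =
      e * (TC T K b0 + (1 + L / ε) / ε * DRV c A V K b0) := by
    unfold TC DRV
    rw [mul_add, mul_sum, mul_sum, mul_sum, ← sum_add_distrib]
    refine sum_congr rfl fun k _ => ?_
    rw [mul_sum, mul_sum, mul_sum, sum_filter, sum_filter, ← sum_add_distrib]
    refine sum_congr rfl fun b _ => ?_
    simp only [herr]
    split_ifs <;> ring
  have h3 : ∑ k ∈ range K, ∑ b ∈ cel K b0 (k + 1),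
      2 ^ k * Rg ε (cr (A (k + 1) b) c) (fun x => h (k + 1) x * X (k + 1) x) (ivm (k + 1) b) =
      ∑ k ∈ range K, ∑ b ∈ cel K b0 (k + 1), 2 ^ k * g (k + 1) b +
      2 * (ε ^ 2)⁻¹ * e * GTV c A h V K b0 := by
    unfold GTV
    rw [mul_sum, ← sum_add_distrib]
    refine sum_congr rfl fun k _ => ?_
    rw [mul_sum, sum_filter, ← sum_add_distrib]
    refine sum_congr rfl fun b _ => ?_
    simp only [hg]
    split_ifs <;> ring
  rw [h3]
  rw [h2] at hRsum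
  unfold TV
  linarith

theorem GTV_nonneg [DecidableEq Ω] (c : Ω → ℤ → ℝ) (A : ℕ → ℤ → Finset Ω) (h : ℕ → ℤ → ℝ)
    (V : ℕ → Finset ℤ) (K : ℕ) (b0 : ℤ) : 0 ≤ GTV c A h V K b0 :=
  sum_nonneg fun _ _ => sum_nonneg fun _ _ =>
    mul_nonneg (by positivity) (mul_nonneg (by norm_num) (gd2_nonneg _ _ _))

theorem GTV_le [DecidableEq Ω] (c : Ω → ℤ → ℝ) (A : ℕ → ℤ → Finset Ω) (h : ℕ → ℤ → ℝ)
    (V : ℕ → Finset ℤ) (K : ℕ) (b0 : ℤ) : GTV c A h V K b0 ≤ GT c A h K b0 :=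
  sum_le_sum fun _ _ => sum_le_sum_of_subset_of_nonneg (filter_subset _ _) fun _ _ _ =>
    mul_nonneg (by positivity) (mul_nonneg (by norm_num) (gd2_nonneg _ _ _))

omit [Fintype Ω] in
theorem DRV_nonneg [DecidableEq Ω] (c : Ω → ℤ → ℝ) (A : ℕ → ℤ → Finset Ω)
    (V : ℕ → Finset ℤ) (K : ℕ) (b0 : ℤ) : 0 ≤ DRV c A V K b0 :=
  sum_nonneg fun _ _ => sum_nonneg fun _ _ => mul_nonneg (by positivity) (ms_nonneg _ _ _)

omit [Fintype Ω] in
theorem DRV_le [DecidableEq Ω] (c : Ω → ℤ → ℝ) (A : ℕ → ℤ → Finset Ω)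
    (V : ℕ → Finset ℤ) (K : ℕ) (b0 : ℤ) : DRV c A V K b0 ≤ DR c A K b0 :=
  sum_le_sum fun _ _ => sum_le_sum_of_subset_of_nonneg (filter_subset _ _) fun _ _ _ =>
    mul_nonneg (by positivity) (ms_nonneg _ _ _)

/-- **The sum over the boxes of one fibre, region form.** -/
theorem fib_reg [DecidableEq Ω] {ε τ e2 e3 L2 L3 : ℝ} (hε : 0 < ε) (hτ : 0 ≤ τ)
    {a b : Ω → ℤ → ℝ} {A2 A3 : ℕ → ℤ → Finset Ω} {Y X h2 h3 : ℕ → ℤ → ℝ} {K : ℕ} {b2 b3 : ℤ}
    {V2 V3 T2 T3 : ℕ → Finset ℤ} (H2 : Reg1 e2 L2 a A2 Y h2 K b2 V2 T2)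
    (H3 : Reg1 e3 L3 b A3 X h3 K b3 V3 T3)
    (act : ℕ → ℤ → Finset Ω) (q : ℕ → ℤ → ℤ) (U : ℕ → Finset ℤ)
    (hq : ∀ k, Set.InjOn (q k) (U k))
    (hU2 : ∀ k < K, ∀ n ∈ U (k + 1), n ∈ cel K b2 (k + 1) ∧ n ∈ V2 (k + 1))
    (hU3 : ∀ k < K, ∀ n ∈ U (k + 1), q (k + 1) n ∈ cel K b3 (k + 1) ∧ q (k + 1) n ∈ V3 (k + 1))
    (ha : ∀ k < K, ∀ n ∈ U (k + 1), act (k + 1) n ⊆ A2 (k + 1) n)
    (hb : ∀ k < K, ∀ n ∈ U (k + 1), act (k + 1) n ⊆ A3 (k + 1) (q (k + 1) n))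
    (hop : ∀ k < K, ∀ n ∈ U (k + 1), ∀ p r : ℤ → ℝ,
      |av2 (ivm (k + 1) n) (ivm (k + 1) (q (k + 1) n)) (fun x2 x3 =>
        p x2 * ker (cr (act (k + 1) n) a) (cr (act (k + 1) n) b) x2 x3 * r x3)| ≤
      τ * Real.sqrt (avg (ivm (k + 1) n) fun x => p x ^ 2) *
        Real.sqrt (avg (ivm (k + 1) (q (k + 1) n)) fun x => r x ^ 2)) :
    ∑ k ∈ range K, ∑ n ∈ U (k + 1), 2 ^ k *
      |av2 (ivm (k + 1) n) (ivm (k + 1) (q (k + 1) n)) (fun x2 x3 =>
        (h2 (k + 1) x2 * Y (k + 1) x2) *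
          ker (cr (act (k + 1) n) a) (cr (act (k + 1) n) b) x2 x3 *
          (h3 (k + 1) x3 * X (k + 1) x3))| ≤
      (τ + Real.sqrt (ε * L2) + Real.sqrt (ε * L3) + ε) *
        (Real.sqrt (TV ε e2 L2 (LV V2 K b2) (TC T2 K b2) (DRV a A2 V2 K b2)
            (GTV a A2 h2 V2 K b2)) *
          Real.sqrt (TV ε e3 L3 (LV V3 K b3) (TC T3 K b3) (DRV b A3 V3 K b3)
            (GTV b A3 h3 V3 K b3))) :=
  fib_gen hε hτ (fun k hk n hn => H2.hL k hk n (hU2 k hk n hn).1 (hU2 k hk n hn).2)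
    (fun k hk n hn => H3.hL k hk _ (hU3 k hk n hn).1 (hU3 k hk n hn).2) act hq
    (fun k hk n hn => (hU2 k hk n hn).1) (fun k hk n hn => (hU3 k hk n hn).1) ha hb hop
    (tree_reg hε H2) (tree_reg hε H3)

end

end Vale.Agent.P141.H606
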