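import Vale.Agent.P141.H606.Sub
import Vale.Agent.P141.H606.Reg

/-!
# P141, line W, end lemma (E-AG): masses bounded on the used cells only

`Reg2`: the hypotheses of one variable; the alive mass is at most `L` on the used cells `V k`
(`V` closed upwards), nothing is asked of the other cells.
* `gd2_reg`: the Gram terms of the used cells;
* `Reg2.bessel`: the square function;
* `fib_reg2`: the sum over the boxes of one fibre, arbitrary index type.
-/

namespace Vale.Agent.P141.H606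

open Finset Vale.Agent.P141.PL.H315 Vale.Agent.P141.H337

noncomputable section

variable {Ω : Type*}

/-- The hypotheses of one variable, masses on the used cells only. -/
structure Reg2 [DecidableEq Ω] (e L : ℝ) (c : Ω → ℤ → ℝ) (A : ℕ → ℤ → Finset Ω)
    (X h : ℕ → ℤ → ℝ) (K : ℕ) (b0 : ℤ) (V T : ℕ → Finset ℤ) : Prop where
  e0 : 0 ≤ e
  L0 : 0 ≤ L
  hh : ∀ k < K, ∀ b ∈ cel K b0 (k + 1), (∀ x ∈ ivm k (2 * b), h (k + 1) x = 1) ∧
    ∀ x ∈ ivm k (2 * b + 1), h (k + 1) x = -1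
  off : ∀ k ≤ K, ∀ b ∈ cel K b0 k, b ∉ V k → ∀ x ∈ ivm k b, X k x = 0
  hX : ∀ k ≤ K, ∀ b ∈ cel K b0 k, b ∈ V k → avg (ivm k b) (fun x => X k x ^ 2) ≤ e
  hX' : ∀ k < K, ∀ b ∈ cel K b0 k, avg (ivm k b) (fun x => X (k + 1) x ^ 2) ≤ e
  hT : ∀ k < K, ∀ b ∈ cel K b0 k, b ∉ T k → ∀ x ∈ ivm k b, X (k + 1) x = X k x
  hV : ∀ k < K, ∀ b ∈ cel K b0 k, b ∈ V k → b / 2 ∈ V (k + 1)
  hL : ∀ k ≤ K, ∀ b ∈ cel K b0 k, b ∈ V k → ms c (A k b) (ivm k b) ≤ L

theorem ivm_child {k : ℕ} {b : ℤ} : ivm k b ⊆ ivm (k + 1) (b / 2) := by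
  intro x hx
  rw [mem_ivm] at hx ⊢
  rw [pow_succ, ← Int.ediv_ediv_of_nonneg (by positivity), hx]

/-- the mass on a child is at most twice the mass -/
theorem ms_child (c : Ω → ℤ → ℝ) (D : Finset Ω) (k : ℕ) (b : ℤ) :
    ms c D (ivm k b) ≤ 2 * ms c D (ivm (k + 1) (b / 2)) := by
  unfold ms
  rw [mul_sum]
  refine sum_le_sum fun i _ => ?_
  unfold avg
  rw [card_ivm, card_ivm]
  push_cast
  have h1 : ∑ x ∈ ivm k b, c i x ^ 2 ≤ ∑ x ∈ ivm (k + 1) (b / 2), c i x ^ 2 :=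
    sum_le_sum_of_subset_of_nonneg ivm_child fun _ _ _ => sq_nonneg _
  have h2 : (0 : ℝ) < 2 ^ k := by positivity
  have h3 : ((2 : ℝ) ^ (k + 1))⁻¹ = ((2 : ℝ) ^ k)⁻¹ / 2 := by rw [pow_succ]; field_simp
  rw [h3]
  have h4 := mul_le_mul_of_nonneg_left h1 (inv_nonneg.2 h2.le)
  linarith

theorem Reg2.hL' [DecidableEq Ω] {e L : ℝ} {c : Ω → ℤ → ℝ} {A : ℕ → ℤ → Finset Ω}
    {X h : ℕ → ℤ → ℝ} {K : ℕ} {b0 : ℤ} {V T : ℕ → Finset ℤ}
    (H : Reg2 e L c A X h K b0 V T) {k : ℕ} (hk : k < K) {b : ℤ} (hb : b ∈ cel K b0 k)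
    (hV : b / 2 ∈ V (k + 1)) : ms c (A (k + 1) (b / 2)) (ivm k b) ≤ 2 * L :=
  (ms_child c _ k b).trans
    (mul_le_mul_of_nonneg_left (H.hL (k + 1) hk _ (cel_parent hk hb) hV) (by norm_num))

theorem Reg2.reg1 [DecidableEq Ω] {e L : ℝ} {c : Ω → ℤ → ℝ} {A : ℕ → ℤ → Finset Ω}
    {X h : ℕ → ℤ → ℝ} {K : ℕ} {b0 : ℤ} {V T : ℕ → Finset ℤ}
    (H : Reg2 e L c A X h K b0 V T) : Reg1 e (2 * L) c A X h K b0 V T where
  e0 := H.e0
  L0 := by linarith [H.L0]
  hh := H.hh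
  off := H.off
  hX := H.hX
  hX' := H.hX'
  hT := H.hT
  hL k hk b hb hV := (H.hL (k + 1) hk b hb hV).trans (by linarith [H.L0])
  hL' _ hk _ hb hV _ := H.hL' hk hb (H.hV _ hk _ hb hV)

/-- **The Gram terms of the used cells.** -/
theorem gd2_reg [Fintype Ω] [DecidableEq Ω] {e L : ℝ} {c : Ω → ℤ → ℝ} {A : ℕ → ℤ → Finset Ω}
    {X h : ℕ → ℤ → ℝ} {K : ℕ} {b0 : ℤ} {V T : ℕ → Finset ℤ}
    (H : Reg2 e L c A X h K b0 V T) :
    GTV c A h V K b0 ≤ 2 ^ K * (2 * L) ^ 2 + 2 * (2 * L) * DR c A K b0 := by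
  have hL0 := H.L0
  have dm0 : ∀ k b, 0 ≤ dm c A k b := fun k b => ms_nonneg _ _ _
  set U2 : ℕ → ℤ → ℝ := fun k b =>
    if b ∈ V k then Gm (cr (A k b) c) (ivm k b) else (2 * L) ^ 2 with hU2
  set g : ℕ → ℤ → ℝ := fun k b =>
    if b ∈ V k then 2 * gd2 (cr (A k b) c) (ivm k b) (h k) else 0 with hg
  have hG : ∀ k < K, ∀ b ∈ cel K b0 (k + 1), g (k + 1) b ≤
      (U2 k (2 * b) + 2 * (2 * L) * dm c A k (2 * b)) +
        (U2 k (2 * b + 1) + 2 * (2 * L) * dm c A k (2 * b + 1)) - 2 * U2 (k + 1) b := by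
    intro k hk b hb
    by_cases hVb : b ∈ V (k + 1)
    · have h1 : ∀ b' ∈ cel K b0 k, b' / 2 = b →
          Gm (cr (A (k + 1) b) c) (ivm k b') ≤ U2 k b' + 2 * (2 * L) * dm c A k b' := by
        intro b' hb' ed
        have h6 : ms c (A (k + 1) b) (ivm k b') ≤ 2 * L := by
          have := H.hL' hk hb' (by rw [ed]; exact hVb)
          rwa [ed] at this
        have hd : 0 ≤ 2 * (2 * L) * dm c A k b' := mul_nonneg (by positivity) (dm0 k b')
        by_cases hV' : b' ∈ V k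
        · have h2 := Gm_drop c (A (k + 1) b) (A (k + 1) b \ A k b') (ivm k b')
          have h3 : A (k + 1) b \ (A (k + 1) b \ A k b') ⊆ A k b' := by
            intro i hi; simp only [mem_sdiff] at hi; tauto
          have h4 := Gm_mono c h3 (ivm k b')
          have h5 : A (k + 1) b ∩ (A (k + 1) b \ A k b') = A (k + 1) b \ A k b' := by
            ext i; simp only [mem_inter, mem_sdiff]; tauto
          rw [h5] at h2
          have h7 : dm c A k b' = ms c (A (k + 1) b \ A k b') (ivm k b') := by unfold dm; rw [ed]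
          simp only [hU2, if_pos hV']
          rw [h7]
          have h8 := ms_nonneg c (A (k + 1) b \ A k b') (ivm k b')
          have := mul_le_mul_of_nonneg_left h6 h8
          calc _ ≤ Gm (cr (A k b') c) (ivm k b') +
                2 * ms c (A (k + 1) b \ A k b') (ivm k b') * ms c (A (k + 1) b) (ivm k b') := by
                  linarith
            _ ≤ _ := by linarith
        · simp only [hU2, if_neg hV']
          have h2 := (Gm_le c (A (k + 1) b) (ivm k b')).trans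
            (pow_le_pow_left₀ (ms_nonneg _ _ _) h6 2)
          linarith
      have c1 := h1 _ (cel_child hk hb).1 (div2 b).1
      have c2 := h1 _ (cel_child hk hb).2 (div2 b).2
      have Hh := halves k b (H.hh k hk b hb).1 (H.hh k hk b hb).2
      have e1 : g (k + 1) b = 2 * gd2 (cr (A (k + 1) b) c) (ivm (k + 1) b) (h (k + 1)) := by
        simp only [hg, if_pos hVb]
      have e2 : U2 (k + 1) b = Gm (cr (A (k + 1) b) c) (ivm (k + 1) b) := by
        simp only [hU2, if_pos hVb]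
      rw [e1, e2, gd2_eq _ Hh]
      linarith
    · have n1 : 2 * b ∉ V k := fun hc => hVb (by
        have := H.hV k hk _ (cel_child hk hb).1 hc
        rwa [(div2 b).1] at this)
      have n2 : 2 * b + 1 ∉ V k := fun hc => hVb (by
        have := H.hV k hk _ (cel_child hk hb).2 hc
        rwa [(div2 b).2] at this)
      simp only [hg, hU2, if_neg hVb, if_neg n1, if_neg n2]
      have d1 : 0 ≤ 2 * (2 * L) * dm c A k (2 * b) := mul_nonneg (by positivity) (dm0 _ _)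
      have d2 : 0 ≤ 2 * (2 * L) * dm c A k (2 * b + 1) := mul_nonneg (by positivity) (dm0 _ _)
      linarith
  have hsum := tele U2 (fun k b => 2 * (2 * L) * dm c A k b) g hG (fun b => by
    simp only [hU2]; split_ifs; exacts [Gm_nonneg _ _, by positivity])
  have e0 : GTV c A h V K b0 = ∑ k ∈ range K, ∑ b ∈ cel K b0 (k + 1), 2 ^ k * g (k + 1) b := by
    unfold GTV
    refine sum_congr rfl fun k _ => ?_
    rw [sum_filter]
    refine sum_congr rfl fun b _ => ?_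
    simp only [hg]
    split_ifs <;> ring
  rw [e0]
  refine hsum.trans (add_le_add ?_ (le_of_eq ?_))
  · have h1 : ∀ b ∈ cel K b0 0, U2 0 b ≤ (2 * L) ^ 2 := by
      intro b hb
      simp only [hU2]
      split_ifs with hV0
      · refine (Gm_le c _ _).trans (pow_le_pow_left₀ (ms_nonneg _ _ _) ?_ 2)
        exact (H.hL 0 (Nat.zero_le _) b hb hV0).trans (by linarith)
      · exact le_rfl
    refine (sum_le_card_nsmul _ _ _ h1).trans (le_of_eq ?_)
    have := card_cel (K := K) (b0 := b0) (Nat.zero_le K)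
    rw [pow_zero, one_mul] at this
    rw [nsmul_eq_mul, this]
  · unfold DR
    rw [mul_sum]
    refine sum_congr rfl fun k _ => ?_
    rw [mul_sum]
    exact sum_congr rfl fun b _ => by ring

/-- **The square function, masses on the used cells only.** -/
theorem Reg2.bessel [Fintype Ω] [DecidableEq Ω] {ε e L : ℝ} (hε : 0 < ε) {c : Ω → ℤ → ℝ}
    {A : ℕ → ℤ → Finset Ω} {X h : ℕ → ℤ → ℝ} {K : ℕ} {b0 : ℤ} {V T : ℕ → Finset ℤ}
    (H : Reg2 e L c A X h K b0 V T) :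
    ∑ k ∈ range K, ∑ b ∈ cel K b0 (k + 1),
      2 ^ k * Rg ε (cr (A (k + 1) b) c) (fun x => h (k + 1) x * X (k + 1) x) (ivm (k + 1) b) ≤
      TB ε e (2 * L) K (TC T K b0) (DR c A K b0) := by
  refine (tree_reg hε H.reg1).trans ?_
  unfold TV TB
  have he := H.e0
  have hL0 := H.L0
  have h1 := gd2_reg H
  have h2 : LV V K b0 ≤ 2 ^ K := by
    unfold LV
    have h3 := card_cel (K := K) (b0 := b0) (Nat.zero_le K)
    rw [pow_zero, one_mul] at h3
    rw [← h3]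
    exact_mod_cast card_le_card (filter_subset _ _)
  have h3 := DRV_le c A V K b0
  have h4 : 0 ≤ (1 + 2 * L / ε) / ε := by positivity
  have h5 : 0 ≤ 2 * (ε ^ 2)⁻¹ := by positivity
  gcongr

theorem Reg2.rs [DecidableEq Ω] {e L : ℝ} {c : Ω → ℤ → ℝ} {A : ℕ → ℤ → Finset Ω}
    {X h : ℕ → ℤ → ℝ} {K : ℕ} {b0 : ℤ} {V T : ℕ → Finset ℤ} (H : Reg2 e L c A X h K b0 V T)
    (S : Finset Ω) :
    Reg2 e L (fun i : ↥S => c i) (fun k n => rs S (A k n)) X h K b0 V T where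
  e0 := H.e0
  L0 := H.L0
  hh := H.hh
  off := H.off
  hX := H.hX
  hX' := H.hX'
  hT := H.hT
  hV := H.hV
  hL k hk b hb hVb := (ms_rs_le S _ c _).trans (H.hL k hk b hb hVb)

/-- **The sum over the boxes of one fibre**, masses on the used cells only. -/
theorem fib_reg2 [DecidableEq Ω] {ε τ e L : ℝ} (hε : 0 < ε) (hτ : 0 ≤ τ)
    {a b : Ω → ℤ → ℝ} {A2 A3 : ℕ → ℤ → Finset Ω} {Y X h2 h3 : ℕ → ℤ → ℝ} {K : ℕ} {b2 b3 : ℤ}
    {V2 V3 T2 T3 : ℕ → Finset ℤ} (H2 : Reg2 e L a A2 Y h2 K b2 V2 T2)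
    (H3 : Reg2 e L b A3 X h3 K b3 V3 T3)
    (act : ℕ → ℤ → Finset Ω) (q : ℕ → ℤ → ℤ) (U : ℕ → Finset ℤ)
    (hq : ∀ k, Set.InjOn (q k) (U k))
    (hU2 : ∀ k < K, ∀ n ∈ U (k + 1), n ∈ cel K b2 (k + 1) ∧ n ∈ V2 (k + 1))
    (hU3 : ∀ k < K, ∀ n ∈ U (k + 1), q (k + 1) n ∈ cel K b3 (k + 1) ∧ q (k + 1) n ∈ V3 (k + 1))
    (ha : ∀ k < K, ∀ n ∈ U (k + 1), act (k + 1) n ⊆ A2 (k + 1) n)
    (hb : ∀ k < K, ∀ n ∈ U (k + 1), act (k + 1) n ⊆ A3 (k + 1) (q (k + 1) n))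
    (hop : ∀ k < K, ∀ n ∈ U (k + 1), ∀ p r : ℤ → ℝ,
      |av2 (ivm (k + 1) n) (ivm (k + 1) (q (k + 1) n)) (fun x2 x3 =>
        p x2 * kS (act (k + 1) n) a b x2 x3 * r x3)| ≤
      τ * Real.sqrt (avg (ivm (k + 1) n) fun x => p x ^ 2) *
        Real.sqrt (avg (ivm (k + 1) (q (k + 1) n)) fun x => r x ^ 2)) :
    ∑ k ∈ range K, ∑ n ∈ U (k + 1), 2 ^ k *
      |av2 (ivm (k + 1) n) (ivm (k + 1) (q (k + 1) n)) (fun x2 x3 =>
        (h2 (k + 1) x2 * Y (k + 1) x2) * kS (act (k + 1) n) a b x2 x3 *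
          (h3 (k + 1) x3 * X (k + 1) x3))| ≤
      (τ + Real.sqrt (ε * L) + Real.sqrt (ε * L) + ε) *
        (Real.sqrt (TB ε e (2 * L) K (TC T2 K b2) (DR a A2 K b2)) *
          Real.sqrt (TB ε e (2 * L) K (TC T3 K b3) (DR b A3 K b3))) := by
  have hL0 := H2.L0
  set S : Finset Ω := (range (K + 1)).biUnion fun k => (cel K b2 k).biUnion fun n => A2 k n with hS
  have hsub : ∀ k < K, ∀ n ∈ U (k + 1), act (k + 1) n ⊆ S := by
    intro k hk n hn i hi
    rw [hS, mem_biUnion]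
    refine ⟨k + 1, mem_range.2 (by omega), ?_⟩
    rw [mem_biUnion]
    exact ⟨n, (hU2 k hk n hn).1, ha k hk n hn hi⟩
  have hk : ∀ k < K, ∀ n ∈ U (k + 1), ∀ x2 x3, kS (act (k + 1) n) a b x2 x3 =
      ker (cr (rs S (act (k + 1) n)) fun i : ↥S => a i)
        (cr (rs S (act (k + 1) n)) fun i : ↥S => b i) x2 x3 := by
    intro k hk n hn x2 x3
    rw [ker_cr, kS_rs (hsub k hk n hn)]
  have h1 := fib_gen (A2 := fun k n => rs S (A2 k n)) (A3 := fun k n => rs S (A3 k n)) hε hτ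
    (fun k hk n hn => (H2.rs S).hL (k + 1) hk n (hU2 k hk n hn).1 (hU2 k hk n hn).2)
    (fun k hk n hn => (H3.rs S).hL (k + 1) hk _ (hU3 k hk n hn).1 (hU3 k hk n hn).2)
    (fun k n => rs S (act k n)) hq (fun k hk n hn => (hU2 k hk n hn).1)
    (fun k hk n hn => (hU3 k hk n hn).1)
    (fun k hk n hn => rs_mono S (ha k hk n hn)) (fun k hk n hn => rs_mono S (hb k hk n hn))
    (fun k hk' n hn p r => by
      have := hop k hk' n hn p r
      simp only [hk k hk' n hn] at this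
      exact this)
    ((H2.rs S).bessel hε) ((H3.rs S).bessel hε)
  have e1 : ∑ k ∈ range K, ∑ n ∈ U (k + 1), (2 : ℝ) ^ k *
      |av2 (ivm (k + 1) n) (ivm (k + 1) (q (k + 1) n)) (fun x2 x3 =>
        (h2 (k + 1) x2 * Y (k + 1) x2) * kS (act (k + 1) n) a b x2 x3 *
          (h3 (k + 1) x3 * X (k + 1) x3))| =
      ∑ k ∈ range K, ∑ n ∈ U (k + 1), (2 : ℝ) ^ k *
      |av2 (ivm (k + 1) n) (ivm (k + 1) (q (k + 1) n)) (fun x2 x3 =>
        (h2 (k + 1) x2 * Y (k + 1) x2) *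
          ker (cr (rs S (act (k + 1) n)) fun i : ↥S => a i)
            (cr (rs S (act (k + 1) n)) fun i : ↥S => b i) x2 x3 *
          (h3 (k + 1) x3 * X (k + 1) x3))| := by
    refine sum_congr rfl fun k hk' => sum_congr rfl fun n hn => ?_
    simp only [hk k (mem_range.1 hk') n hn]
  rw [e1]
  refine h1.trans (mul_le_mul_of_nonneg_left ?_ (by positivity))
  exact mul_le_mul
    (Real.sqrt_le_sqrt (TB_mono hε H2.e0 (by positivity) le_rfl (DR_rs_le S A2 a K b2)))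
    (Real.sqrt_le_sqrt (TB_mono hε H3.e0 (by positivity) le_rfl (DR_rs_le S A3 b K b3)))
    (Real.sqrt_nonneg _) (Real.sqrt_nonneg _)

end

end Vale.Agent.P141.H606
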