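import Vale.Agent.P141.H606.FB
import Vale.Agent.P141.H606.RegL

/-!
# P141, line W, end lemma (T_ker): the kernel part in numbers

* `FibOK`: the data of one fibre `(x0, x1)`: components `a`, `b`, active sets, operator bound, masses
  (on the used cells only);
* `KP_le`: one fibre;
* `tker`: the average over the fibres.
-/

namespace Vale.Agent.P141.H606

open Finset
open Vale.Agent.P141.PL.H855 (wN TT)
open Vale.Agent.P141.PL (hs)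
open Vale.Agent.P141.PL.H315 (avg)
open Vale.Agent.P141.H337 (ivm mem_ivm card_ivm sum_long av2 cel card_cel)
open Vale.Agent.P141.H911

noncomputable section

variable {Ω : Type*}

/-- the components of one fibre: `act k n` on the exact square, `A2`, `A3` on the cells -/
structure FibD (Ω : Type*) where
  /-- the components in the variable `x2` -/
  a : Ω → ℤ → ℝ
  /-- the components in the variable `x3` -/
  b : Ω → ℤ → ℝ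
  /-- the active components of the square -/
  act : ℕ → ℤ → Finset Ω
  /-- the components of the cells of `x2` -/
  A2 : ℕ → ℤ → Finset Ω
  /-- the components of the cells of `x3` -/
  A3 : ℕ → ℤ → Finset Ω

/-- the used boxes of one fibre -/
def Uf (σ : Equiv.Perm (Fin 4)) (o : ℤ) (nd : Finset (ℕ × ℤ)) (x0 x1 : ℤ) (k : ℕ) : Finset ℤ :=
  Uz σ o (vk nd k) (x0 / 2 ^ k) (x1 / 2 ^ k)

/-- the second cell of a box -/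
def qf (o x0 x1 : ℤ) (k : ℕ) (n : ℤ) : ℤ := qz o (x0 / 2 ^ k) (x1 / 2 ^ k) n

/-- **The hypotheses of one fibre.** -/
structure FibOK [DecidableEq Ω] (σ : Equiv.Perm (Fin 4)) (o : ℤ) (K : ℕ) (nd : Finset (ℕ × ℤ))
    (A : Fin 4 → ℕ → ℤ → ℝ) (Kr : ℕ → ℤ → ℤ → ℤ → ℤ → ℝ) (τ e L : ℝ) (x0 x1 : ℤ)
    (B2 B3 : Finset ℤ) (V2 V3 T2 T3 : ℤ → ℕ → Finset ℤ) (d : FibD Ω) : Prop where
  root2 : ∀ k, 1 ≤ k → k ≤ K → ∀ n ∈ Uf σ o nd x0 x1 k, n / 2 ^ (K - k) ∈ B2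
  root3 : ∀ k, 1 ≤ k → k ≤ K → ∀ n ∈ Uf σ o nd x0 x1 k, qf o x0 x1 k n / 2 ^ (K - k) ∈ B3
  used2 : ∀ k, 1 ≤ k → k ≤ K → ∀ n ∈ Uf σ o nd x0 x1 k, n ∈ V2 (n / 2 ^ (K - k)) k
  used3 : ∀ k, 1 ≤ k → k ≤ K → ∀ n ∈ Uf σ o nd x0 x1 k,
    qf o x0 x1 k n ∈ V3 (qf o x0 x1 k n / 2 ^ (K - k)) k
  kern : ∀ k, 1 ≤ k → k ≤ K → ∀ n ∈ Uf σ o nd x0 x1 k, ∀ x2 ∈ ivm k n,
    ∀ x3 ∈ ivm k (qf o x0 x1 k n), Kr k x0 x1 x2 x3 = kS (d.act k n) d.a d.b x2 x3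
  ha : ∀ k, 1 ≤ k → k ≤ K → ∀ n ∈ Uf σ o nd x0 x1 k, d.act k n ⊆ d.A2 k n
  hb : ∀ k, 1 ≤ k → k ≤ K → ∀ n ∈ Uf σ o nd x0 x1 k, d.act k n ⊆ d.A3 k (qf o x0 x1 k n)
  hop : ∀ k, 1 ≤ k → k ≤ K → ∀ n ∈ Uf σ o nd x0 x1 k, ∀ p r : ℤ → ℝ,
    |av2 (ivm k n) (ivm k (qf o x0 x1 k n)) (fun x2 x3 =>
      p x2 * kS (d.act k n) d.a d.b x2 x3 * r x3)| ≤
      τ * Real.sqrt (avg (ivm k n) fun x => p x ^ 2) *
        Real.sqrt (avg (ivm k (qf o x0 x1 k n)) fun x => r x ^ 2)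
  tree2 : ∀ b ∈ B2, Reg2 e L d.a d.A2 (fun k x2 => Yz σ (fun s => A s k) x0 x1 x2)
    (fun k => hs k) K b (V2 b) (T2 b)
  tree3 : ∀ b ∈ B3, Reg2 e L d.b d.A3 (fun k x3 => Xz σ (fun s => A s k) x0 x1 x3)
    (fun k => hs k) K b (V3 b) (T3 b)

theorem TB_nonneg {ε e L : ℝ} (hε : 0 < ε) (he : 0 ≤ e) (hL : 0 ≤ L) (K : ℕ) {t d : ℝ}
    (ht : 0 ≤ t) (hd : 0 ≤ d) : 0 ≤ TB ε e L K t d := by
  unfold TB
  have h1 : 0 ≤ (1 + L / ε) / ε := by positivity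
  positivity

theorem TC_nonneg (T : ℕ → Finset ℤ) (K : ℕ) (b0 : ℤ) : 0 ≤ TC T K b0 :=
  sum_nonneg fun _ _ => sum_nonneg fun _ _ => by positivity

/-- the sum over the roots of the square functions -/
def SB [DecidableEq Ω] (ε e L : ℝ) (K : ℕ) (B : Finset ℤ) (T : ℤ → ℕ → Finset ℤ)
    (a : Ω → ℤ → ℝ) (A : ℕ → ℤ → Finset Ω) : ℝ :=
  ∑ b ∈ B, TB ε e (2 * L) K (TC (T b) K b) (DR a A K b)

/-- **One fibre.** -/
theorem KP_le [DecidableEq Ω] {σ : Equiv.Perm (Fin 4)} {o : ℤ} {K : ℕ} {nd : Finset (ℕ × ℤ)}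
    {A : Fin 4 → ℕ → ℤ → ℝ} {Kr : ℕ → ℤ → ℤ → ℤ → ℤ → ℝ} {ε τ e L : ℝ} {x0 x1 : ℤ}
    {B2 B3 : Finset ℤ} {V2 V3 T2 T3 : ℤ → ℕ → Finset ℤ} {d : FibD Ω} (hε : 0 < ε) (hτ : 0 ≤ τ)
    (he : 0 ≤ e) (hL : 0 ≤ L) (H : FibOK σ o K nd A Kr τ e L x0 x1 B2 B3 V2 V3 T2 T3 d) :
    KP σ o K nd A Kr x0 x1 ≤ (τ + 2 * Real.sqrt (ε * L) + ε) *
      (B3.card * SB ε e L K B2 T2 d.a d.A2 + B2.card * SB ε e L K B3 T3 d.b d.A3) := by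
  set κ : ℝ := τ + Real.sqrt (ε * L) + Real.sqrt (ε * L) + ε with hκ
  have hκ0 : 0 ≤ κ := by positivity
  have hL2 : 0 ≤ 2 * L := by positivity
  set V : ℤ → ℤ → ℕ → Finset ℤ := fun b2 b3 k => (Uf σ o nd x0 x1 k).filter fun n =>
    n / 2 ^ (K - k) = b2 ∧ qf o x0 x1 k n / 2 ^ (K - k) = b3 with hV
  have hVm : ∀ {b2 b3 k n}, n ∈ V b2 b3 k ↔ n ∈ Uf σ o nd x0 x1 k ∧ n / 2 ^ (K - k) = b2 ∧
      qf o x0 x1 k n / 2 ^ (K - k) = b3 := by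
    intro b2 b3 k n; simp only [hV, mem_filter]
  -- the terms of one box
  set G : ℕ → ℤ → ℝ := fun k n => 2 ^ k *
    kp σ (fun s => A s (k + 1)) (Kr (k + 1)) (k + 1) x0 x1 n (qf o x0 x1 (k + 1) n) with hG
  have hG0 : ∀ k n, 0 ≤ G k n := fun k n => mul_nonneg (by positivity) (abs_nonneg _)
  have e1 : KP σ o K nd A Kr x0 x1 = 2 * ∑ k ∈ range K, ∑ n ∈ Uf σ o nd x0 x1 (k + 1), G k n := by
    unfold KP
    have h1 : Icc 1 K = Ico 1 (K + 1) := by ext; simp only [mem_Icc, mem_Ico]; omega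
    rw [h1, Finset.sum_Ico_eq_sum_range, mul_sum, Nat.add_sub_cancel]
    refine sum_congr rfl fun k _ => ?_
    rw [mul_sum, add_comm 1 k]
    refine sum_congr rfl fun n _ => ?_
    simp only [hG, qf]
    rw [pow_succ]; ring
  have hcel : ∀ {k : ℕ} {m b : ℤ}, m / 2 ^ (K - k) = b → m ∈ cel K b k := by
    intro k m b h
    have h2 : (0 : ℤ) < 2 ^ (K - k) := by positivity
    have h3 := Int.mul_ediv_add_emod m (2 ^ (K - k))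
    have h4 := Int.emod_nonneg m h2.ne'
    have h5 := Int.emod_lt_of_pos m h2
    unfold cel
    rw [mem_Ico, ← h]
    constructor
    · linarith
    · rw [mul_add]; linarith
  -- split over the roots
  have e2 : ∑ k ∈ range K, ∑ n ∈ Uf σ o nd x0 x1 (k + 1), G k n ≤
      ∑ b2 ∈ B2, ∑ b3 ∈ B3, ∑ k ∈ range K, ∑ n ∈ V b2 b3 (k + 1), G k n := by
    have h1 : ∑ b2 ∈ B2, ∑ b3 ∈ B3, ∑ k ∈ range K, ∑ n ∈ V b2 b3 (k + 1), G k n =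
        ∑ k ∈ range K, ∑ b2 ∈ B2, ∑ b3 ∈ B3, ∑ n ∈ V b2 b3 (k + 1), G k n := by
      rw [sum_comm (s := range K)]
      refine sum_congr rfl fun b2 _ => ?_
      rw [sum_comm]
    rw [h1]
    refine sum_le_sum fun k hk => ?_
    have hk1 : 1 ≤ k + 1 := by omega
    have hkK : k + 1 ≤ K := mem_range.1 hk
    have h2 : ∑ b2 ∈ B2, ∑ b3 ∈ B3, ∑ n ∈ V b2 b3 (k + 1), G k n =
        ∑ b2 ∈ B2, ∑ b3 ∈ B3, ∑ n ∈ Uf σ o nd x0 x1 (k + 1),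
          if n / 2 ^ (K - (k + 1)) = b2 ∧ qf o x0 x1 (k + 1) n / 2 ^ (K - (k + 1)) = b3 then
            G k n else 0 := by
      refine sum_congr rfl fun b2 _ => sum_congr rfl fun b3 _ => ?_
      simp only [hV, sum_filter]
    have h3 : ∑ b2 ∈ B2, ∑ b3 ∈ B3, ∑ n ∈ Uf σ o nd x0 x1 (k + 1),
          (if n / 2 ^ (K - (k + 1)) = b2 ∧ qf o x0 x1 (k + 1) n / 2 ^ (K - (k + 1)) = b3 then
            G k n else 0) =
        ∑ n ∈ Uf σ o nd x0 x1 (k + 1), ∑ b2 ∈ B2, ∑ b3 ∈ B3,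
          if n / 2 ^ (K - (k + 1)) = b2 ∧ qf o x0 x1 (k + 1) n / 2 ^ (K - (k + 1)) = b3 then
            G k n else 0 := by
      rw [sum_comm (s := Uf σ o nd x0 x1 (k + 1))]
      refine sum_congr rfl fun b2 _ => ?_
      rw [sum_comm]
    rw [h2, h3]
    refine sum_le_sum fun n hn => ?_
    have r2 := H.root2 (k + 1) hk1 hkK n hn
    have r3 := H.root3 (k + 1) hk1 hkK n hn
    set g : ℤ → ℤ → ℝ := fun b2 b3 =>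
      if n / 2 ^ (K - (k + 1)) = b2 ∧ qf o x0 x1 (k + 1) n / 2 ^ (K - (k + 1)) = b3 then
        G k n else 0 with hg
    have g0 : ∀ b2 b3, 0 ≤ g b2 b3 := fun b2 b3 => by
      simp only [hg]; split_ifs; exacts [hG0 _ _, le_rfl]
    have s1 : ∑ b3 ∈ B3, g (n / 2 ^ (K - (k + 1))) b3 ≤ ∑ b2 ∈ B2, ∑ b3 ∈ B3, g b2 b3 :=
      single_le_sum (f := fun b2 => ∑ b3 ∈ B3, g b2 b3) (fun b2 _ => sum_nonneg fun b3 _ => g0 b2 b3)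
        r2
    have s2 : g (n / 2 ^ (K - (k + 1))) (qf o x0 x1 (k + 1) n / 2 ^ (K - (k + 1))) ≤
        ∑ b3 ∈ B3, g (n / 2 ^ (K - (k + 1))) b3 :=
      single_le_sum (f := fun b3 => g (n / 2 ^ (K - (k + 1))) b3) (fun b3 _ => g0 _ b3) r3
    refine le_trans (le_of_eq ?_) (s2.trans s1)
    simp only [hg]
    simp
  -- one pair of roots
  have e3 : ∀ b2 ∈ B2, ∀ b3 ∈ B3, ∑ k ∈ range K, ∑ n ∈ V b2 b3 (k + 1), G k n ≤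
      κ * (Real.sqrt (TB ε e (2 * L) K (TC (T2 b2) K b2) (DR d.a d.A2 K b2)) *
        Real.sqrt (TB ε e (2 * L) K (TC (T3 b3) K b3) (DR d.b d.A3 K b3))) := by
    intro b2 hb2 b3 hb3
    have h1 := fib_reg2 hε hτ (H.tree2 b2 hb2) (H.tree3 b3 hb3) d.act (qf o x0 x1)
      (V b2 b3) ?_ ?_ ?_ ?_ ?_ ?_
    · refine le_trans (le_of_eq ?_) h1
      refine sum_congr rfl fun k hk => sum_congr rfl fun n hn => ?_
      have hkK : k + 1 ≤ K := mem_range.1 hk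
      have hn' := (hVm.1 hn).1
      simp only [hG]
      congr 1
      unfold kp av2 avg
      congr 2
      refine sum_congr rfl fun x2 hx2 => ?_
      have h5 : ∑ x3 ∈ ivm (k + 1) (qf o x0 x1 (k + 1) n),
          (hs (k + 1) x2 * Yz σ (fun s => A s (k + 1)) x0 x1 x2) * Kr (k + 1) x0 x1 x2 x3 *
            (hs (k + 1) x3 * Xz σ (fun s => A s (k + 1)) x0 x1 x3) =
          ∑ x3 ∈ ivm (k + 1) (qf o x0 x1 (k + 1) n),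
          (hs (k + 1) x2 * Yz σ (fun s => A s (k + 1)) x0 x1 x2) *
            kS (d.act (k + 1) n) d.a d.b x2 x3 *
            (hs (k + 1) x3 * Xz σ (fun s => A s (k + 1)) x0 x1 x3) :=
        sum_congr rfl fun x3 hx3 => by
          rw [H.kern (k + 1) (by omega) hkK n hn' x2 hx2 x3 hx3]
      simp only [h5]
    · intro k n _ n' _ h
      unfold qf qz at h
      linarith
    · intro k hk n hn
      have h2 := hVm.1 hn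
      refine ⟨hcel h2.2.1, ?_⟩
      have h3 := H.used2 (k + 1) (by omega) hk n h2.1
      rwa [h2.2.1] at h3
    · intro k hk n hn
      have h2 := hVm.1 hn
      refine ⟨hcel h2.2.2, ?_⟩
      have h3 := H.used3 (k + 1) (by omega) hk n h2.1
      rwa [h2.2.2] at h3
    · exact fun k hk n hn => H.ha (k + 1) (by omega) hk n (hVm.1 hn).1
    · exact fun k hk n hn => H.hb (k + 1) (by omega) hk n (hVm.1 hn).1
    · exact fun k hk n hn p r => H.hop (k + 1) (by omega) hk n (hVm.1 hn).1 p r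
  have e4 : ∀ b2 ∈ B2, ∀ b3 ∈ B3,
      κ * (Real.sqrt (TB ε e (2 * L) K (TC (T2 b2) K b2) (DR d.a d.A2 K b2)) *
        Real.sqrt (TB ε e (2 * L) K (TC (T3 b3) K b3) (DR d.b d.A3 K b3))) ≤
      κ * ((TB ε e (2 * L) K (TC (T2 b2) K b2) (DR d.a d.A2 K b2) +
        TB ε e (2 * L) K (TC (T3 b3) K b3) (DR d.b d.A3 K b3)) / 2) := by
    intro b2 _ b3 _
    refine mul_le_mul_of_nonneg_left ?_ hκ0
    have n2 := TB_nonneg hε he hL2 K (TC_nonneg (T2 b2) K b2) (DR_nonneg d.a d.A2 K b2)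
    have n3 := TB_nonneg hε he hL2 K (TC_nonneg (T3 b3) K b3) (DR_nonneg d.b d.A3 K b3)
    have s2 := Real.sq_sqrt n2
    have s3 := Real.sq_sqrt n3
    nlinarith [sq_nonneg (Real.sqrt (TB ε e (2 * L) K (TC (T2 b2) K b2) (DR d.a d.A2 K b2)) -
      Real.sqrt (TB ε e (2 * L) K (TC (T3 b3) K b3) (DR d.b d.A3 K b3)))]
  rw [e1]
  have e5 : ∑ b2 ∈ B2, ∑ b3 ∈ B3, ∑ k ∈ range K, ∑ n ∈ V b2 b3 (k + 1), G k n ≤
      ∑ b2 ∈ B2, ∑ b3 ∈ B3, κ * ((TB ε e (2 * L) K (TC (T2 b2) K b2) (DR d.a d.A2 K b2) +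
        TB ε e (2 * L) K (TC (T3 b3) K b3) (DR d.b d.A3 K b3)) / 2) :=
    sum_le_sum fun b2 h2 => sum_le_sum fun b3 h3 => (e3 b2 h2 b3 h3).trans (e4 b2 h2 b3 h3)
  have e6 : ∑ b2 ∈ B2, ∑ b3 ∈ B3, κ * ((TB ε e (2 * L) K (TC (T2 b2) K b2) (DR d.a d.A2 K b2) +
        TB ε e (2 * L) K (TC (T3 b3) K b3) (DR d.b d.A3 K b3)) / 2) =
      κ / 2 * (B3.card * SB ε e L K B2 T2 d.a d.A2 + B2.card * SB ε e L K B3 T3 d.b d.A3) := by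
    unfold SB
    have h1 : ∀ b2 ∈ B2, ∑ b3 ∈ B3, κ * ((TB ε e (2 * L) K (TC (T2 b2) K b2) (DR d.a d.A2 K b2) +
        TB ε e (2 * L) K (TC (T3 b3) K b3) (DR d.b d.A3 K b3)) / 2) =
        κ / 2 * (B3.card * TB ε e (2 * L) K (TC (T2 b2) K b2) (DR d.a d.A2 K b2) +
          ∑ b3 ∈ B3, TB ε e (2 * L) K (TC (T3 b3) K b3) (DR d.b d.A3 K b3)) := by
      intro b2 _
      rw [← mul_sum, ← sum_div, sum_add_distrib, sum_const, nsmul_eq_mul]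
      ring
    rw [sum_congr rfl h1, ← mul_sum, sum_add_distrib, sum_const, nsmul_eq_mul, ← mul_sum]
  calc 2 * ∑ k ∈ range K, ∑ n ∈ Uf σ o nd x0 x1 (k + 1), G k n
      ≤ 2 * (κ / 2 * (B3.card * SB ε e L K B2 T2 d.a d.A2 +
          B2.card * SB ε e L K B3 T3 d.b d.A3)) := by
        have := (e2.trans e5).trans (le_of_eq e6)
        linarith
    _ = _ := by rw [hκ]; ring

theorem SB_eq [DecidableEq Ω] (ε e L : ℝ) (K : ℕ) (B : Finset ℤ) (T : ℤ → ℕ → Finset ℤ)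
    (a : Ω → ℤ → ℝ) (A : ℕ → ℤ → Finset Ω) :
    SB ε e L K B T a A = e * (B.card * 2 ^ K + ∑ b ∈ B, TC (T b) K b +
      (1 + 2 * L / ε) / ε * ∑ b ∈ B, DR a A K b +
      2 * (ε ^ 2)⁻¹ * (B.card * 2 ^ K * (2 * L) ^ 2 + 2 * (2 * L) * ∑ b ∈ B, DR a A K b)) := by
  unfold SB TB
  simp only [sum_add_distrib, ← mul_sum, sum_const, nsmul_eq_mul]
  ring

/-- the number of the kernel part -/
def TN (ε τ e L N t D : ℝ) : ℝ :=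
  (τ + 2 * Real.sqrt (ε * L) + ε) * (2 * N * (e * (N + t + (1 + 2 * L / ε) / ε * D +
    2 * (ε ^ 2)⁻¹ * (N * (2 * L) ^ 2 + 2 * (2 * L) * D))))

/-- **The kernel part in numbers.** -/
theorem tker [DecidableEq Ω] {σ : Equiv.Perm (Fin 4)} {o : ℤ} {K : ℕ} {nd : Finset (ℕ × ℤ)}
    {A : Fin 4 → ℕ → ℤ → ℝ} {Kr : ℕ → ℤ → ℤ → ℤ → ℤ → ℝ} {ε τ e L N t D : ℝ}
    {B2 B3 : ℤ → ℤ → Finset ℤ} {V2 V3 T2 T3 : ℤ → ℤ → ℤ → ℕ → Finset ℤ} {d : ℤ → ℤ → FibD Ω}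
    (hε : 0 < ε) (hτ : 0 ≤ τ) (he : 0 ≤ e) (hL : 0 ≤ L) (hN : 0 ≤ N)
    (H : ∀ x0 ∈ Ico (0 : ℤ) (6 * 2 ^ K), ∀ x1 ∈ Ico (0 : ℤ) (6 * 2 ^ K),
      FibOK σ o K nd A Kr τ e L x0 x1 (B2 x0 x1) (B3 x0 x1) (V2 x0 x1) (V3 x0 x1) (T2 x0 x1)
        (T3 x0 x1) (d x0 x1))
    (hB2 : ∀ x0 x1, ((B2 x0 x1).card : ℝ) ≤ N) (hB3 : ∀ x0 x1, ((B3 x0 x1).card : ℝ) ≤ N)
    (hT2 : ∀ x0 ∈ Ico (0 : ℤ) (6 * 2 ^ K), ∀ x1 ∈ Ico (0 : ℤ) (6 * 2 ^ K),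
      ∑ b ∈ B2 x0 x1, TC (T2 x0 x1 b) K b ≤ t * 2 ^ K)
    (hT3 : ∀ x0 ∈ Ico (0 : ℤ) (6 * 2 ^ K), ∀ x1 ∈ Ico (0 : ℤ) (6 * 2 ^ K),
      ∑ b ∈ B3 x0 x1, TC (T3 x0 x1 b) K b ≤ t * 2 ^ K)
    (hD2 : ∑ x0 ∈ Ico (0 : ℤ) (6 * 2 ^ K), ∑ x1 ∈ Ico (0 : ℤ) (6 * 2 ^ K),
      ∑ b ∈ B2 x0 x1, DR (d x0 x1).a (d x0 x1).A2 K b ≤ D * 2 ^ K * (36 * 4 ^ K))
    (hD3 : ∑ x0 ∈ Ico (0 : ℤ) (6 * 2 ^ K), ∑ x1 ∈ Ico (0 : ℤ) (6 * 2 ^ K),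
      ∑ b ∈ B3 x0 x1, DR (d x0 x1).b (d x0 x1).A3 K b ≤ D * 2 ^ K * (36 * 4 ^ K)) :
    (36 * (4 : ℝ) ^ K)⁻¹ * ∑ x0 ∈ Ico (0 : ℤ) (6 * 2 ^ K), ∑ x1 ∈ Ico (0 : ℤ) (6 * 2 ^ K),
      KP σ o K nd A Kr x0 x1 ≤ TN ε τ e L N t D * 2 ^ K := by
  set Z := Ico (0 : ℤ) (6 * 2 ^ K) with hZ
  have hZc : (Z.card : ℝ) = 6 * 2 ^ K := by
    rw [hZ, Int.card_Ico, sub_zero]
    have : ((6 * 2 ^ K : ℤ)) = ((6 * 2 ^ K : ℕ) : ℤ) := by push_cast; ring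
    rw [this, Int.toNat_natCast]
    push_cast; ring
  set κ : ℝ := τ + 2 * Real.sqrt (ε * L) + ε with hκ
  have hκ0 : 0 ≤ κ := by positivity
  set u : ℝ := (1 + 2 * L / ε) / ε with hu
  have hu0 : 0 ≤ u := by positivity
  set w : ℝ := 2 * (ε ^ 2)⁻¹ with hw
  have hw0 : 0 ≤ w := by positivity
  -- one fibre
  have h1 : ∀ x0 ∈ Z, ∀ x1 ∈ Z, KP σ o K nd A Kr x0 x1 ≤ κ * (N *
      (2 * (e * (N * 2 ^ K + t * 2 ^ K + w * (N * 2 ^ K * (2 * L) ^ 2)))) + N * (e * ((u + w * (2 * (2 * L))) *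
        (∑ b ∈ B2 x0 x1, DR (d x0 x1).a (d x0 x1).A2 K b +
          ∑ b ∈ B3 x0 x1, DR (d x0 x1).b (d x0 x1).A3 K b)))) := by
    intro x0 hx0 x1 hx1
    refine (KP_le hε hτ he hL (H x0 hx0 x1 hx1)).trans ?_
    refine mul_le_mul_of_nonneg_left ?_ hκ0
    have d2 : 0 ≤ ∑ b ∈ B2 x0 x1, DR (d x0 x1).a (d x0 x1).A2 K b :=
      sum_nonneg fun b _ => DR_nonneg _ _ _ _
    have d3 : 0 ≤ ∑ b ∈ B3 x0 x1, DR (d x0 x1).b (d x0 x1).A3 K b :=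
      sum_nonneg fun b _ => DR_nonneg _ _ _ _
    have c2 := hB2 x0 x1
    have c3 := hB3 x0 x1
    have t2 := hT2 x0 hx0 x1 hx1
    have t3 := hT3 x0 hx0 x1 hx1
    have t20 : 0 ≤ ∑ b ∈ B2 x0 x1, TC (T2 x0 x1 b) K b := sum_nonneg fun b _ => TC_nonneg _ _ _
    have t30 : 0 ≤ ∑ b ∈ B3 x0 x1, TC (T3 x0 x1 b) K b := sum_nonneg fun b _ => TC_nonneg _ _ _
    have hp : (0 : ℝ) < 2 ^ K := by positivity
    have s2 : SB ε e L K (B2 x0 x1) (T2 x0 x1) (d x0 x1).a (d x0 x1).A2 ≤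
        e * (N * 2 ^ K + t * 2 ^ K + u * ∑ b ∈ B2 x0 x1, DR (d x0 x1).a (d x0 x1).A2 K b +
          w * (N * 2 ^ K * (2 * L) ^ 2 + 2 * (2 * L) * ∑ b ∈ B2 x0 x1, DR (d x0 x1).a (d x0 x1).A2 K b)) := by
      rw [SB_eq]
      refine mul_le_mul_of_nonneg_left ?_ he
      gcongr
    have s3 : SB ε e L K (B3 x0 x1) (T3 x0 x1) (d x0 x1).b (d x0 x1).A3 ≤
        e * (N * 2 ^ K + t * 2 ^ K + u * ∑ b ∈ B3 x0 x1, DR (d x0 x1).b (d x0 x1).A3 K b +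
          w * (N * 2 ^ K * (2 * L) ^ 2 + 2 * (2 * L) * ∑ b ∈ B3 x0 x1, DR (d x0 x1).b (d x0 x1).A3 K b)) := by
      rw [SB_eq]
      refine mul_le_mul_of_nonneg_left ?_ he
      gcongr
    have n2 : 0 ≤ SB ε e L K (B2 x0 x1) (T2 x0 x1) (d x0 x1).a (d x0 x1).A2 :=
      sum_nonneg fun b _ => TB_nonneg hε he (by positivity) K (TC_nonneg _ _ _)
        (DR_nonneg _ _ _ _)
    have n3 : 0 ≤ SB ε e L K (B3 x0 x1) (T3 x0 x1) (d x0 x1).b (d x0 x1).A3 :=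
      sum_nonneg fun b _ => TB_nonneg hε he (by positivity) K (TC_nonneg _ _ _)
        (DR_nonneg _ _ _ _)
    have m2 := mul_le_mul c3 s2 n2 hN
    have m3 := mul_le_mul c2 s3 n3 hN
    refine (add_le_add m2 m3).trans (le_of_eq ?_)
    ring
  have h2 : ∑ x0 ∈ Z, ∑ x1 ∈ Z, KP σ o K nd A Kr x0 x1 ≤
      ∑ x0 ∈ Z, ∑ x1 ∈ Z, κ * (N *
      (2 * (e * (N * 2 ^ K + t * 2 ^ K + w * (N * 2 ^ K * (2 * L) ^ 2)))) + N * (e * ((u + w * (2 * (2 * L))) *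
        (∑ b ∈ B2 x0 x1, DR (d x0 x1).a (d x0 x1).A2 K b +
          ∑ b ∈ B3 x0 x1, DR (d x0 x1).b (d x0 x1).A3 K b)))) :=
    sum_le_sum fun x0 hx0 => sum_le_sum fun x1 hx1 => h1 x0 hx0 x1 hx1
  have h3 : ∑ x0 ∈ Z, ∑ x1 ∈ Z, κ * (N *
      (2 * (e * (N * 2 ^ K + t * 2 ^ K + w * (N * 2 ^ K * (2 * L) ^ 2)))) + N * (e * ((u + w * (2 * (2 * L))) *
        (∑ b ∈ B2 x0 x1, DR (d x0 x1).a (d x0 x1).A2 K b +
          ∑ b ∈ B3 x0 x1, DR (d x0 x1).b (d x0 x1).A3 K b)))) =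
      κ * (36 * 4 ^ K * (N * (2 * (e * (N * 2 ^ K + t * 2 ^ K + w * (N * 2 ^ K * (2 * L) ^ 2))))) +
        N * (e * ((u + w * (2 * (2 * L))) *
        (∑ x0 ∈ Z, ∑ x1 ∈ Z, ∑ b ∈ B2 x0 x1, DR (d x0 x1).a (d x0 x1).A2 K b +
          ∑ x0 ∈ Z, ∑ x1 ∈ Z, ∑ b ∈ B3 x0 x1, DR (d x0 x1).b (d x0 x1).A3 K b)))) := by
    simp_rw [← mul_sum, sum_add_distrib, ← mul_sum, sum_const, nsmul_eq_mul]
    simp_rw [sum_add_distrib]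
    rw [hZc]
    have h4 : (4 : ℝ) ^ K = 2 ^ K * 2 ^ K := by rw [← mul_pow]; norm_num
    rw [h4]
    ring
  have h5 : (0 : ℝ) < 36 * 4 ^ K := by positivity
  have h6 : 0 ≤ N * (e * (u + w * (2 * (2 * L)))) := by positivity
  rw [inv_mul_le_iff₀ h5]
  refine (h2.trans (le_of_eq h3)).trans ?_
  have h7 : N * (e * ((u + w * (2 * (2 * L))) *
        (∑ x0 ∈ Z, ∑ x1 ∈ Z, ∑ b ∈ B2 x0 x1, DR (d x0 x1).a (d x0 x1).A2 K b +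
          ∑ x0 ∈ Z, ∑ x1 ∈ Z, ∑ b ∈ B3 x0 x1, DR (d x0 x1).b (d x0 x1).A3 K b))) ≤
      N * (e * (u + w * (2 * (2 * L)))) * (D * 2 ^ K * (36 * 4 ^ K) + D * 2 ^ K * (36 * 4 ^ K)) := by
    rw [← mul_assoc e, ← mul_assoc N]
    exact mul_le_mul_of_nonneg_left (add_le_add hD2 hD3) h6
  refine (mul_le_mul_of_nonneg_left (add_le_add_right h7 _) hκ0).trans (le_of_eq ?_)
  unfold TN
  rw [← hκ, ← hu, ← hw]
  ring

end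

end Vale.Agent.P141.H606
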