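import Vale.Agent.P141.H911.Fibre2

/-!
# P141, line W, end lemma (FB): the kernel part and the residual part of a box

`P G = Kr + Rr` on the used boxes.
* `box_split`: one node, one box;
* `TT_split`: the total of the nodes is at most the average over the fibres of the kernel part (the
  absolute value is taken for every `x0`, `x1`) plus the residual part (the sum over `x1` stays
  inside the absolute value).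
* `res_tri`: the residual part when `Rr` is a sum of products of three functions of two variables.
-/

namespace Vale.Agent.P141.H606

open Finset
open Vale.Agent.P141.PL.H855 (wN TT)
open Vale.Agent.P141.PL (hs tri)
open Vale.Agent.P141.PL.H315 (avg)
open Vale.Agent.P141.H337 (ivm mem_ivm card_ivm sum_long av2)
open Vale.Agent.P141.H911

noncomputable section

/-- the kernel part of one box of one fibre -/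
def kp (σ : Equiv.Perm (Fin 4)) (f : Fin 4 → ℤ → ℝ) (Kr : ℤ → ℤ → ℤ → ℤ → ℝ) (k : ℕ)
    (x0 x1 n q : ℤ) : ℝ :=
  |av2 (ivm k n) (ivm k q) fun x2 x3 => (hs k x2 * Yz σ f x0 x1 x2) * Kr x0 x1 x2 x3 *
    (hs k x3 * Xz σ f x0 x1 x3)|

/-- the residual part of one box, `x0` fixed -/
def rp (σ : Equiv.Perm (Fin 4)) (f : Fin 4 → ℤ → ℝ) (Rr : ℤ → ℤ → ℤ → ℤ → ℝ) (k : ℕ)
    (x0 m1 n q : ℤ) : ℝ :=
  |∑ x1 ∈ ivm k m1, hs k x1 * ∑ x2 ∈ ivm k n, ∑ x3 ∈ ivm k q,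
    (hs k x2 * Yz σ f x0 x1 x2) * Rr x0 x1 x2 x3 * (hs k x3 * Xz σ f x0 x1 x3)|

/-- **one box** -/
theorem box_split (σ : Equiv.Perm (Fin 4)) {k : ℕ} (hk : 1 ≤ k) (o m0 m1 n : ℤ)
    (f : Fin 4 → ℤ → ℝ) (Kr Rr : ℤ → ℤ → ℤ → ℤ → ℝ)
    (h : ∀ x0 ∈ ivm k m0, ∀ x1 ∈ ivm k m1, ∀ x2 ∈ ivm k n, ∀ x3 ∈ ivm k (qz o m0 m1 n),
      Pz σ f x1 x2 x3 * Gz σ f x0 x2 x3 = Kr x0 x1 x2 x3 + Rr x0 x1 x2 x3) :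
    |wN o f (k, vz σ o m0 m1 n)| ≤
      ((2 : ℝ) ^ k)⁻¹ * ∑ x0 ∈ ivm k m0, ∑ x1 ∈ ivm k m1, kp σ f Kr k x0 x1 n (qz o m0 m1 n) +
      ((8 : ℝ) ^ k)⁻¹ * ∑ x0 ∈ ivm k m0, rp σ f Rr k x0 m1 n (qz o m0 m1 n) := by
  have h0 := wN_box σ hk (bz_sum σ o m0 m1 n) f
  rw [nod_bz] at h0
  have hb0 : bz σ o m0 m1 n (σ 0) = m0 := by simp [bz]
  have hb1 : bz σ o m0 m1 n (σ 1) = m1 := by simp [bz]
  have hb2 : bz σ o m0 m1 n (σ 2) = n := by simp [bz]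
  have hb3 : bz σ o m0 m1 n (σ 3) = qz o m0 m1 n := by simp [bz]
  rw [hb0, hb1, hb2, hb3] at h0
  set q := qz o m0 m1 n with hq
  have e1 : ∑ x0 ∈ ivm k m0, ∑ x1 ∈ ivm k m1, ∑ x2 ∈ ivm k n, ∑ x3 ∈ ivm k q,
      hs k x0 * hs k x1 * hs k x2 * hs k x3 * ∏ s, f (σ s) (elp σ s ![x0, x1, x2, x3]) =
      ∑ x0 ∈ ivm k m0, ∑ x1 ∈ ivm k m1, hs k x0 * hs k x1 *
        ∑ x2 ∈ ivm k n, ∑ x3 ∈ ivm k q, (hs k x2 * Yz σ f x0 x1 x2) * Kr x0 x1 x2 x3 *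
          (hs k x3 * Xz σ f x0 x1 x3) +
      ∑ x0 ∈ ivm k m0, hs k x0 * ∑ x1 ∈ ivm k m1, hs k x1 *
        ∑ x2 ∈ ivm k n, ∑ x3 ∈ ivm k q, (hs k x2 * Yz σ f x0 x1 x2) * Rr x0 x1 x2 x3 *
          (hs k x3 * Xz σ f x0 x1 x3) := by
    rw [← sum_add_distrib]
    refine sum_congr rfl fun x0 hx0 => ?_
    rw [mul_sum, ← sum_add_distrib]
    refine sum_congr rfl fun x1 hx1 => ?_
    rw [← mul_assoc, ← mul_add, ← sum_add_distrib, mul_sum]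
    refine sum_congr rfl fun x2 hx2 => ?_
    rw [← sum_add_distrib, mul_sum]
    refine sum_congr rfl fun x3 hx3 => ?_
    rw [prod_fz, h x0 hx0 x1 hx1 x2 hx2 x3 hx3]
    ring
  rw [h0, e1, mul_add]
  refine (abs_add_le _ _).trans (add_le_add ?_ ?_)
  · rw [abs_mul, abs_of_nonneg (by positivity : (0 : ℝ) ≤ ((8 : ℝ) ^ k)⁻¹)]
    have h8 : ((8 : ℝ) ^ k)⁻¹ = ((2 : ℝ) ^ k)⁻¹ * ((4 : ℝ) ^ k)⁻¹ := by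
      rw [← mul_inv, ← mul_pow]; norm_num
    rw [h8, mul_assoc]
    refine mul_le_mul_of_nonneg_left ?_ (by positivity)
    rw [inv_mul_le_iff₀ (by positivity), mul_sum]
    refine (abs_sum_le_sum_abs _ _).trans (sum_le_sum fun x0 _ => ?_)
    rw [mul_sum]
    refine (abs_sum_le_sum_abs _ _).trans (sum_le_sum fun x1 _ => ?_)
    rw [abs_mul, abs_mul, Vale.Agent.P141.PL.abs_hs, Vale.Agent.P141.PL.abs_hs, one_mul, one_mul,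
      sum_av2, abs_mul, abs_of_nonneg (by positivity : (0 : ℝ) ≤ (4 : ℝ) ^ k)]
    exact le_rfl
  · rw [abs_mul, abs_of_nonneg (by positivity : (0 : ℝ) ≤ ((8 : ℝ) ^ k)⁻¹)]
    refine mul_le_mul_of_nonneg_left ?_ (by positivity)
    refine (abs_sum_le_sum_abs _ _).trans (sum_le_sum fun x0 _ => ?_)
    rw [abs_mul, Vale.Agent.P141.PL.abs_hs, one_mul]
    exact le_rfl

/-- the kernel part of the fibre `(x0, x1)` -/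
def KP (σ : Equiv.Perm (Fin 4)) (o : ℤ) (K : ℕ) (nd : Finset (ℕ × ℤ)) (A : Fin 4 → ℕ → ℤ → ℝ)
    (Kr : ℕ → ℤ → ℤ → ℤ → ℤ → ℝ) (x0 x1 : ℤ) : ℝ :=
  ∑ k ∈ Icc 1 K, ∑ n ∈ Uz σ o (vk nd k) (x0 / 2 ^ k) (x1 / 2 ^ k), 2 ^ k *
    kp σ (fun s => A s k) (Kr k) k x0 x1 n (qz o (x0 / 2 ^ k) (x1 / 2 ^ k) n)

/-- the residual part -/
def RP (σ : Equiv.Perm (Fin 4)) (o : ℤ) (K : ℕ) (nd : Finset (ℕ × ℤ)) (A : Fin 4 → ℕ → ℤ → ℝ)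
    (Rr : ℕ → ℤ → ℤ → ℤ → ℤ → ℝ) : ℝ :=
  ∑ k ∈ Icc 1 K, ((2 : ℝ) ^ k)⁻¹ * ∑ m0 ∈ Ico (0 : ℤ) (6 * 2 ^ (K - k)),
    ∑ m1 ∈ Ico (0 : ℤ) (6 * 2 ^ (K - k)), ∑ n ∈ Uz σ o (vk nd k) m0 m1, ∑ x0 ∈ ivm k m0,
      rp σ (fun s => A s k) (Rr k) k x0 m1 n (qz o m0 m1 n)

theorem KP_nonneg (σ : Equiv.Perm (Fin 4)) (o : ℤ) (K : ℕ) (nd : Finset (ℕ × ℤ))
    (A : Fin 4 → ℕ → ℤ → ℝ) (Kr : ℕ → ℤ → ℤ → ℤ → ℤ → ℝ) (x0 x1 : ℤ) :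
    0 ≤ KP σ o K nd A Kr x0 x1 :=
  sum_nonneg fun _ _ => sum_nonneg fun _ _ => mul_nonneg (by positivity) (abs_nonneg _)

theorem RP_nonneg (σ : Equiv.Perm (Fin 4)) (o : ℤ) (K : ℕ) (nd : Finset (ℕ × ℤ))
    (A : Fin 4 → ℕ → ℤ → ℝ) (Rr : ℕ → ℤ → ℤ → ℤ → ℤ → ℝ) : 0 ≤ RP σ o K nd A Rr :=
  sum_nonneg fun _ _ => mul_nonneg (by positivity) (sum_nonneg fun _ _ => sum_nonneg fun _ _ =>
    sum_nonneg fun _ _ => sum_nonneg fun _ _ => abs_nonneg _)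

/-- one scale -/
theorem scale_split (σ : Equiv.Perm (Fin 4)) (o : ℤ) {k K : ℕ} (hk : 1 ≤ k) (hkK : k ≤ K)
    (V : Finset ℤ) (f : Fin 4 → ℤ → ℝ) (Kr Rr : ℤ → ℤ → ℤ → ℤ → ℝ)
    (h : ∀ m0 m1 n, vz σ o m0 m1 n ∈ V → ∀ x0 ∈ ivm k m0, ∀ x1 ∈ ivm k m1, ∀ x2 ∈ ivm k n,
      ∀ x3 ∈ ivm k (qz o m0 m1 n),
        Pz σ f x1 x2 x3 * Gz σ f x0 x2 x3 = Kr x0 x1 x2 x3 + Rr x0 x1 x2 x3) :
    ∑ v ∈ V, |wN o f (k, v)| ≤ (|dd σ 3 2| : ℤ) * ((36 * (4 : ℝ) ^ K)⁻¹ *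
      (∑ x0 ∈ Ico (0 : ℤ) (6 * 2 ^ K), ∑ x1 ∈ Ico (0 : ℤ) (6 * 2 ^ K),
        ∑ n ∈ Uz σ o V (x0 / 2 ^ k) (x1 / 2 ^ k), 2 ^ k *
          kp σ f Kr k x0 x1 n (qz o (x0 / 2 ^ k) (x1 / 2 ^ k) n) +
      ((2 : ℝ) ^ k)⁻¹ * ∑ m0 ∈ Ico (0 : ℤ) (6 * 2 ^ (K - k)),
        ∑ m1 ∈ Ico (0 : ℤ) (6 * 2 ^ (K - k)), ∑ n ∈ Uz σ o V m0 m1, ∑ x0 ∈ ivm k m0,
          rp σ f Rr k x0 m1 n (qz o m0 m1 n))) := by
  have h1 := sum_nodes σ o V (N := 2 ^ (K - k)) (by positivity) (fun v => |wN o f (k, v)|)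
  have hD : (0 : ℝ) ≤ (|dd σ 3 2| : ℤ) := by exact_mod_cast abs_nonneg _
  set S1 : ℝ := ∑ x0 ∈ Ico (0 : ℤ) (6 * 2 ^ K), ∑ x1 ∈ Ico (0 : ℤ) (6 * 2 ^ K),
        ∑ n ∈ Uz σ o V (x0 / 2 ^ k) (x1 / 2 ^ k),
          kp σ f Kr k x0 x1 n (qz o (x0 / 2 ^ k) (x1 / 2 ^ k) n) with hS1
  set S2 : ℝ := ∑ m0 ∈ Ico (0 : ℤ) (6 * 2 ^ (K - k)),
        ∑ m1 ∈ Ico (0 : ℤ) (6 * 2 ^ (K - k)), ∑ n ∈ Uz σ o V m0 m1, ∑ x0 ∈ ivm k m0,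
          rp σ f Rr k x0 m1 n (qz o m0 m1 n) with hS2
  have h2 : ∑ m0 ∈ Ico (0 : ℤ) (6 * 2 ^ (K - k)), ∑ m1 ∈ Ico (0 : ℤ) (6 * 2 ^ (K - k)),
      ∑ n ∈ Uz σ o V m0 m1, |wN o f (k, vz σ o m0 m1 n)| ≤
      ((2 : ℝ) ^ k)⁻¹ * S1 + ((8 : ℝ) ^ k)⁻¹ * S2 := by
    rw [hS1, ← sum_cells' hkK (fun m0 m1 x0 x1 => ∑ n ∈ Uz σ o V m0 m1,
      kp σ f Kr k x0 x1 n (qz o m0 m1 n)), hS2, mul_sum, mul_sum, ← sum_add_distrib]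
    refine sum_le_sum fun m0 _ => ?_
    rw [mul_sum, mul_sum, ← sum_add_distrib]
    refine sum_le_sum fun m1 _ => ?_
    have e : ∑ x0 ∈ ivm k m0, ∑ x1 ∈ ivm k m1, ∑ n ∈ Uz σ o V m0 m1,
        kp σ f Kr k x0 x1 n (qz o m0 m1 n) =
        ∑ n ∈ Uz σ o V m0 m1, ∑ x0 ∈ ivm k m0, ∑ x1 ∈ ivm k m1,
        kp σ f Kr k x0 x1 n (qz o m0 m1 n) := by
      rw [sum_comm (s := Uz σ o V m0 m1)]
      refine sum_congr rfl fun x0 _ => ?_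
      rw [sum_comm]
    rw [e, mul_sum, mul_sum, ← sum_add_distrib]
    exact sum_le_sum fun n hn => box_split σ hk o m0 m1 n f Kr Rr (h m0 m1 n (mem_Uz.1 hn))
  have hp : (0 : ℝ) < 36 * ((2 : ℝ) ^ (K - k)) ^ 2 := by positivity
  have h4 : ((2 : ℝ) ^ (K - k)) ^ 2 * 4 ^ k = 4 ^ K := by
    rw [← pow_mul, mul_comm (K - k) 2, pow_mul]
    norm_num only
    rw [← pow_add, Nat.sub_add_cancel hkK]
  push_cast at h1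
  have h5 : ∑ v ∈ V, |wN o f (k, v)| = (36 * ((2 : ℝ) ^ (K - k)) ^ 2)⁻¹ *
      (36 * ((2 : ℝ) ^ (K - k)) ^ 2 * ∑ v ∈ V, |wN o f (k, v)|) := by
    field_simp
  have e6 : ∑ x0 ∈ Ico (0 : ℤ) (6 * 2 ^ K), ∑ x1 ∈ Ico (0 : ℤ) (6 * 2 ^ K),
        ∑ n ∈ Uz σ o V (x0 / 2 ^ k) (x1 / 2 ^ k), 2 ^ k *
          kp σ f Kr k x0 x1 n (qz o (x0 / 2 ^ k) (x1 / 2 ^ k) n) = 2 ^ k * S1 := by
    rw [hS1]
    simp_rw [← mul_sum]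
  rw [e6, h5, h1]
  calc _ = (36 * ((2 : ℝ) ^ (K - k)) ^ 2)⁻¹ * ((|dd σ 3 2| : ℤ) : ℝ) *
        ∑ m0 ∈ Ico (0 : ℤ) (6 * 2 ^ (K - k)), ∑ m1 ∈ Ico (0 : ℤ) (6 * 2 ^ (K - k)),
          ∑ n ∈ Uz σ o V m0 m1, |wN o f (k, vz σ o m0 m1 n)| := by push_cast; ring
    _ ≤ (36 * ((2 : ℝ) ^ (K - k)) ^ 2)⁻¹ * ((|dd σ 3 2| : ℤ) : ℝ) *
        (((2 : ℝ) ^ k)⁻¹ * S1 + ((8 : ℝ) ^ k)⁻¹ * S2) :=
        mul_le_mul_of_nonneg_left h2 (mul_nonneg (by positivity) hD)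
    _ = _ := by
        rw [← h4]
        have e4 : (4 : ℝ) ^ k = 2 ^ k * 2 ^ k := by rw [← mul_pow]; norm_num
        have e8 : (8 : ℝ) ^ k = 2 ^ k * 2 ^ k * 2 ^ k := by rw [← mul_pow, ← mul_pow]; norm_num
        rw [e4, e8]
        field_simp

/-- **The total of the nodes**: kernel part and residual part. -/
theorem TT_split (σ : Equiv.Perm (Fin 4)) (o : ℤ) {K : ℕ} {nd : Finset (ℕ × ℤ)}
    (hnd : ∀ N ∈ nd, 1 ≤ N.1 ∧ N.1 ≤ K) (A : Fin 4 → ℕ → ℤ → ℝ)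
    (Kr Rr : ℕ → ℤ → ℤ → ℤ → ℤ → ℝ)
    (h : ∀ k m0 m1 n, (k, vz σ o m0 m1 n) ∈ nd → ∀ x0 ∈ ivm k m0, ∀ x1 ∈ ivm k m1,
      ∀ x2 ∈ ivm k n, ∀ x3 ∈ ivm k (qz o m0 m1 n),
        Pz σ (fun s => A s k) x1 x2 x3 * Gz σ (fun s => A s k) x0 x2 x3 =
          Kr k x0 x1 x2 x3 + Rr k x0 x1 x2 x3) :
    TT o nd (fun s N => A s N.1) ≤ (|dd σ 3 2| : ℤ) * ((36 * (4 : ℝ) ^ K)⁻¹ *
      (∑ x0 ∈ Ico (0 : ℤ) (6 * 2 ^ K), ∑ x1 ∈ Ico (0 : ℤ) (6 * 2 ^ K),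
        KP σ o K nd A Kr x0 x1 + RP σ o K nd A Rr)) := by
  unfold TT
  rw [sum_scales hnd]
  refine (sum_le_sum fun k hk => scale_split σ o (mem_Icc.1 hk).1 (mem_Icc.1 hk).2 (vk nd k)
    (fun s => A s k) (Kr k) (Rr k) fun m0 m1 n hv => h k m0 m1 n (mem_vk.1 hv)).trans
      (le_of_eq ?_)
  rw [← mul_sum, ← mul_sum, sum_add_distrib]
  congr 3
  rw [sum_comm]
  refine sum_congr rfl fun x0 _ => ?_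
  rw [sum_comm]
  rfl

/-- **The residual part as a sum of trilinear forms.** -/
theorem rp_tri {J : Type*} (I : Finset J) (σ : Equiv.Perm (Fin 4)) (f : Fin 4 → ℤ → ℝ)
    {Rr : ℤ → ℤ → ℤ → ℤ → ℝ} {k : ℕ} {x0 m1 n q : ℤ} (a b c : J → ℤ → ℤ → ℝ)
    (hR : ∀ x1 ∈ ivm k m1, ∀ x2 ∈ ivm k n, ∀ x3 ∈ ivm k q,
      Rr x0 x1 x2 x3 = ∑ i ∈ I, a i x1 x2 * b i x2 x3 * c i x1 x3) :
    rp σ f Rr k x0 m1 n q ≤ ∑ i ∈ I, |tri k (m1, n, q) (fun x1 x2 => a i x1 x2 * Yz σ f x0 x1 x2)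
      (b i) (fun x1 x3 => c i x1 x3 * Xz σ f x0 x1 x3)| := by
  unfold rp
  refine le_trans (le_of_eq ?_) (abs_sum_le_sum_abs _ _)
  congr 1
  unfold tri
  rw [sum_comm (s := I)]
  refine sum_congr rfl fun x1 hx1 => ?_
  rw [sum_comm (s := I), mul_sum]
  refine sum_congr rfl fun x2 hx2 => ?_
  rw [sum_comm (s := I), mul_sum]
  refine sum_congr rfl fun x3 hx3 => ?_
  rw [hR x1 hx1 x2 hx2 x3 hx3, mul_sum, sum_mul, mul_sum]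
  exact sum_congr rfl fun i _ => by ring

end

end Vale.Agent.P141.H606
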