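import Vale.Agent.P141.H606.TKer

/-!
# P141, line W, end lemma (T_ker): the roots of a fibre, the residual part as a sum over atoms

* `root2_mem`, `root3_mem`: the cells of the used boxes of a fibre are below at most 157 roots;
* `RP_le`: the residual part for a residual kernel which is a sum over atoms and offsets.
-/

namespace Vale.Agent.P141.H606

open Finset
open Vale.Agent.P141.PL.H855 (wN TT)
open Vale.Agent.P141.PL (hs tri)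
open Vale.Agent.P141.H337 (ivm mem_ivm card_ivm sum_long av2 cel card_cel)
open Vale.Agent.P141.H911

noncomputable section

/-- the possible roots -/
def RB (K : ℕ) (d β : ℤ) : Finset ℤ :=
  (Icc (β / 2 ^ K - 9) (β / 2 ^ K + 147)).image fun t => t / d

theorem card_RB_le (K : ℕ) (d β : ℤ) : ((RB K d β).card : ℝ) ≤ 157 := by
  have h1 : (RB K d β).card ≤ 157 := by
    refine card_image_le.trans (le_of_eq ?_)
    rw [Int.card_Icc]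
    have : (β / 2 ^ K + 147 + 1 - (β / 2 ^ K - 9)) = 157 := by ring
    rw [this]
    rfl
  exact_mod_cast h1

theorem mul_small {a r Q : ℤ} (ha : |a| ≤ 3) (h0 : 0 ≤ r) (h1 : r ≤ Q) :
    -(3 * Q) ≤ a * r ∧ a * r ≤ 3 * Q := by
  have h2 : |a * r| ≤ 3 * Q := by
    rw [abs_mul, abs_of_nonneg h0]
    exact mul_le_mul ha h1 h0 (by norm_num)
  exact abs_le.1 h2

theorem root_gen {K k : ℕ} (hk : k ≤ K) {d A0 A1 s α x0 x1 n : ℤ} (hd : d ≠ 0) (hd3 : |d| ≤ 3)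
    (hA0 : |A0| ≤ 3) (hA1 : |A1| ≤ 3) (hs0 : 0 ≤ s) (hs9 : s ≤ 9)
    (h1 : α ≤ 2 ^ k * (-s + A0 * (x0 / 2 ^ k) + A1 * (x1 / 2 ^ k) + d * n))
    (h2 : 2 ^ k * (-s + A0 * (x0 / 2 ^ k) + A1 * (x1 / 2 ^ k) + d * n) < α + 2 ^ (K + 7)) :
    n / 2 ^ (K - k) ∈ RB K d (α - A0 * x0 - A1 * x1) := by
  have hq : (0 : ℤ) < 2 ^ k := by positivity
  have hD : (0 : ℤ) < 2 ^ (K - k) := by positivity
  have hQ : (0 : ℤ) < 2 ^ K := by positivity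
  have hp : (2 : ℤ) ^ K = 2 ^ k * 2 ^ (K - k) := by rw [← pow_add]; congr 1; omega
  have h7 : (2 : ℤ) ^ (K + 7) = 128 * 2 ^ K := by rw [pow_add]; ring
  have hqQ : (2 : ℤ) ^ k ≤ 2 ^ K := pow_le_pow_right₀ (by norm_num) hk
  rw [h7] at h2
  have a0 := Int.mul_ediv_add_emod x0 (2 ^ k)
  have a1 := Int.emod_nonneg x0 hq.ne'
  have a2 := Int.emod_lt_of_pos x0 hq
  have b0 := Int.mul_ediv_add_emod x1 (2 ^ k)
  have b1 := Int.emod_nonneg x1 hq.ne'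
  have b2 := Int.emod_lt_of_pos x1 hq
  have c0 := Int.mul_ediv_add_emod n (2 ^ (K - k))
  have c1 := Int.emod_nonneg n hD.ne'
  have c2 := Int.emod_lt_of_pos n hD
  set β := α - A0 * x0 - A1 * x1 with hβ
  have e0 := Int.mul_ediv_add_emod β (2 ^ K)
  have e1 := Int.emod_nonneg β hQ.ne'
  have e2 := Int.emod_lt_of_pos β hQ
  have f0 := mul_small hA0 a1 (a2.le.trans hqQ)
  have f1 := mul_small hA1 b1 (b2.le.trans hqQ)
  have f2 : -(3 * 2 ^ K) ≤ d * (2 ^ k * (n % 2 ^ (K - k))) ∧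
      d * (2 ^ k * (n % 2 ^ (K - k))) ≤ 3 * 2 ^ K := by
    refine mul_small hd3 (mul_nonneg hq.le c1) ?_
    rw [hp]
    exact mul_le_mul_of_nonneg_left c2.le hq.le
  have f3 : 0 ≤ (2 : ℤ) ^ k * s := mul_nonneg hq.le hs0
  have f4 : (2 : ℤ) ^ k * s ≤ 9 * 2 ^ K := by
    calc (2 : ℤ) ^ k * s ≤ 2 ^ K * 9 := mul_le_mul hqQ hs9 hs0 hQ.le
      _ = 9 * 2 ^ K := by ring
  have key : 2 ^ K * (d * (n / 2 ^ (K - k))) - β =
      (2 ^ k * (-s + A0 * (x0 / 2 ^ k) + A1 * (x1 / 2 ^ k) + d * n) - α) + 2 ^ k * s +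
        A0 * (x0 % 2 ^ k) + A1 * (x1 % 2 ^ k) - d * (2 ^ k * (n % 2 ^ (K - k))) := by
    rw [hp, hβ]
    have g0 : x0 % 2 ^ k = x0 - 2 ^ k * (x0 / 2 ^ k) := by linarith
    have g1 : x1 % 2 ^ k = x1 - 2 ^ k * (x1 / 2 ^ k) := by linarith
    have g2 : n % 2 ^ (K - k) = n - 2 ^ (K - k) * (n / 2 ^ (K - k)) := by linarith
    rw [g0, g1, g2]
    ring
  have g1 : 2 ^ K * (β / 2 ^ K - 9) ≤ 2 ^ K * (d * (n / 2 ^ (K - k))) := by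
    rw [mul_sub]; linarith [f0.1, f1.1, f2.2]
  have g2 : 2 ^ K * (d * (n / 2 ^ (K - k))) < 2 ^ K * (β / 2 ^ K + 147) := by
    rw [mul_add]; linarith [f0.2, f1.2, f2.1]
  unfold RB
  rw [mem_image]
  refine ⟨d * (n / 2 ^ (K - k)), ?_, Int.mul_ediv_cancel_left _ hd⟩
  rw [mem_Icc]
  exact ⟨le_of_mul_le_mul_left g1 hQ, (lt_of_mul_lt_mul_left g2 hQ.le).le⟩

theorem dd_abs_le (σ : Equiv.Perm (Fin 4)) (s t : Fin 4) : |dd σ s t| ≤ 3 := by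
  unfold dd
  have h1 := (σ s).isLt
  have h2 := (σ t).isLt
  rw [abs_le]
  omega

/-- the left end of the roots of `x2` -/
def bt2 (σ : Equiv.Perm (Fin 4)) (α x0 x1 : ℤ) : ℤ := α - dd σ 3 0 * x0 - dd σ 3 1 * x1

/-- the left end of the roots of `x3` -/
def bt3 (σ : Equiv.Perm (Fin 4)) (α x0 x1 : ℤ) : ℤ := α - dd σ 2 0 * x0 - dd σ 2 1 * x1

theorem lab_small (σ : Equiv.Perm (Fin 4)) (i : Fin 4) {o : ℤ} (ho : o = 1 ∨ o = -1) :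
    0 ≤ -(((σ i : ℕ) : ℤ) * (o - 2)) ∧ -(((σ i : ℕ) : ℤ) * (o - 2)) ≤ 9 := by
  have h2 := (σ i).isLt
  rcases ho with rfl | rfl <;> constructor <;> norm_num <;> omega

/-- **the roots of `x2`** -/
theorem root2_mem {σ : Equiv.Perm (Fin 4)} {o : ℤ} (ho : o = 1 ∨ o = -1) {K : ℕ}
    {nd : Finset (ℕ × ℤ)} {α : ℤ}
    (hα : ∀ N ∈ nd, α ≤ 2 ^ N.1 * N.2 ∧ 2 ^ N.1 * N.2 < α + 2 ^ (K + 7)) (x0 x1 : ℤ) {k : ℕ}
    (hk : k ≤ K) {n : ℤ} (hn : n ∈ Uf σ o nd x0 x1 k) :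
    n / 2 ^ (K - k) ∈ RB K (dd σ 3 2) (bt2 σ α x0 x1) := by
  have h1 := hα _ (mem_vk.1 (mem_Uz.1 hn))
  have h2 := lab_small σ 3 ho
  have e : vz σ o (x0 / 2 ^ k) (x1 / 2 ^ k) n = -(-(((σ 3 : ℕ) : ℤ) * (o - 2))) +
      dd σ 3 0 * (x0 / 2 ^ k) + dd σ 3 1 * (x1 / 2 ^ k) + dd σ 3 2 * n := by
    rw [vz_eq]; ring
  simp only [e] at h1
  exact root_gen hk (dd_ne σ (by decide)) (dd_abs_le σ 3 2) (dd_abs_le σ 3 0) (dd_abs_le σ 3 1)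
    h2.1 h2.2 h1.1 h1.2

/-- **the roots of `x3`** -/
theorem root3_mem {σ : Equiv.Perm (Fin 4)} {o : ℤ} (ho : o = 1 ∨ o = -1) {K : ℕ}
    {nd : Finset (ℕ × ℤ)} {α : ℤ}
    (hα : ∀ N ∈ nd, α ≤ 2 ^ N.1 * N.2 ∧ 2 ^ N.1 * N.2 < α + 2 ^ (K + 7)) (x0 x1 : ℤ) {k : ℕ}
    (hk : k ≤ K) {n : ℤ} (hn : n ∈ Uf σ o nd x0 x1 k) :
    qf o x0 x1 k n / 2 ^ (K - k) ∈ RB K (dd σ 2 3) (bt3 σ α x0 x1) := by
  have h1 := hα _ (mem_vk.1 (mem_Uz.1 hn))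
  have h2 := lab_small σ 2 ho
  have e : vz σ o (x0 / 2 ^ k) (x1 / 2 ^ k) n = -(-(((σ 2 : ℕ) : ℤ) * (o - 2))) +
      dd σ 2 0 * (x0 / 2 ^ k) + dd σ 2 1 * (x1 / 2 ^ k) + dd σ 2 3 * qf o x0 x1 k n := by
    unfold vz qf qz dd; ring
  simp only [e] at h1
  exact root_gen hk (dd_ne σ (by decide)) (dd_abs_le σ 2 3) (dd_abs_le σ 2 0) (dd_abs_le σ 2 1)
    h2.1 h2.2 h1.1 h1.2

/-- **The residual part as a sum over atoms and offsets.** -/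
theorem RP_le {J T : Type*} (σ : Equiv.Perm (Fin 4)) (o : ℤ) {K : ℕ} {nd : Finset (ℕ × ℤ)}
    {A : Fin 4 → ℕ → ℤ → ℝ} {Rr : ℕ → ℤ → ℤ → ℤ → ℤ → ℝ} (I : ℕ → Finset J) (cf : J → ℝ)
    (Th : J → ℕ → ℤ × ℤ × ℤ → Finset T) (a : J → T → ℕ → ℤ → ℤ → ℝ)
    (W : J → T → ℕ → ℤ → ℤ → ℤ → ℝ) (c : J → T → ℕ → ℤ → ℤ → ℝ)
    (h : ∀ k ∈ Icc 1 K, ∀ m0 m1 n, (k, vz σ o m0 m1 n) ∈ nd → ∀ x0 ∈ ivm k m0,
      ∀ x1 ∈ ivm k m1, ∀ x2 ∈ ivm k n, ∀ x3 ∈ ivm k (qz o m0 m1 n),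
        Rr k x0 x1 x2 x3 = ∑ j ∈ I k, cf j * ∑ θ ∈ Th j k (m1, n, qz o m0 m1 n),
          a j θ k x1 x2 * c j θ k x1 x3 * W j θ k x0 x2 x3) :
    RP σ o K nd A Rr ≤ ∑ k ∈ Icc 1 K, ((2 : ℝ) ^ k)⁻¹ *
      ∑ m0 ∈ Ico (0 : ℤ) (6 * 2 ^ (K - k)), ∑ m1 ∈ Ico (0 : ℤ) (6 * 2 ^ (K - k)),
        ∑ n ∈ Uz σ o (vk nd k) m0 m1, ∑ j ∈ I k, |cf j| *
          ∑ θ ∈ Th j k (m1, n, qz o m0 m1 n), ∑ x0 ∈ ivm k m0,
            |tri k (m1, n, qz o m0 m1 n)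
              (fun x1 x2 => a j θ k x1 x2 * Yz σ (fun s => A s k) x0 x1 x2) (W j θ k x0)
              (fun x1 x3 => c j θ k x1 x3 * Xz σ (fun s => A s k) x0 x1 x3)| := by
  classical
  unfold RP
  refine sum_le_sum fun k hk => mul_le_mul_of_nonneg_left ?_ (by positivity)
  refine sum_le_sum fun m0 _ => sum_le_sum fun m1 _ => sum_le_sum fun n hn => ?_
  set q := qz o m0 m1 n with hq
  have hnd : (k, vz σ o m0 m1 n) ∈ nd := mem_vk.1 (mem_Uz.1 hn)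
  have h1 : ∀ x0 ∈ ivm k m0, rp σ (fun s => A s k) (Rr k) k x0 m1 n q ≤
      ∑ i ∈ (I k).sigma (fun j => Th j k (m1, n, q)), |tri k (m1, n, q)
        (fun x1 x2 => (cf i.1 * a i.1 i.2 k x1 x2) * Yz σ (fun s => A s k) x0 x1 x2)
        (W i.1 i.2 k x0)
        (fun x1 x3 => c i.1 i.2 k x1 x3 * Xz σ (fun s => A s k) x0 x1 x3)| := by
    intro x0 hx0
    have hR : ∀ x1 ∈ ivm k m1, ∀ x2 ∈ ivm k n, ∀ x3 ∈ ivm k q, Rr k x0 x1 x2 x3 =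
        ∑ i ∈ (I k).sigma (fun j => Th j k (m1, n, q)),
          (cf i.1 * a i.1 i.2 k x1 x2) * W i.1 i.2 k x0 x2 x3 * c i.1 i.2 k x1 x3 := by
      intro x1 hx1 x2 hx2 x3 hx3
      rw [h k hk m0 m1 n hnd x0 hx0 x1 hx1 x2 hx2 x3 hx3, sum_sigma]
      refine sum_congr rfl fun j _ => ?_
      rw [mul_sum]
      exact sum_congr rfl fun θ _ => by ring
    exact rp_tri ((I k).sigma (fun j => Th j k (m1, n, q))) σ (fun s => A s k)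
      (fun (i : (_ : J) × T) (x1 x2 : ℤ) => cf i.1 * a i.1 i.2 k x1 x2)
      (fun (i : (_ : J) × T) (x2 x3 : ℤ) => W i.1 i.2 k x0 x2 x3)
      (fun (i : (_ : J) × T) (x1 x3 : ℤ) => c i.1 i.2 k x1 x3) hR
  refine (sum_le_sum h1).trans (le_of_eq ?_)
  have h2 : ∀ x0, ∑ i ∈ (I k).sigma (fun j => Th j k (m1, n, q)), |tri k (m1, n, q)
        (fun x1 x2 => (cf i.1 * a i.1 i.2 k x1 x2) * Yz σ (fun s => A s k) x0 x1 x2)
        (W i.1 i.2 k x0)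
        (fun x1 x3 => c i.1 i.2 k x1 x3 * Xz σ (fun s => A s k) x0 x1 x3)| =
      ∑ j ∈ I k, |cf j| * ∑ θ ∈ Th j k (m1, n, q), |tri k (m1, n, q)
              (fun x1 x2 => a j θ k x1 x2 * Yz σ (fun s => A s k) x0 x1 x2) (W j θ k x0)
              (fun x1 x3 => c j θ k x1 x3 * Xz σ (fun s => A s k) x0 x1 x3)| := by
    intro x0
    rw [sum_sigma]
    refine sum_congr rfl fun j _ => ?_
    rw [mul_sum]
    refine sum_congr rfl fun θ _ => ?_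
    rw [← abs_mul]
    congr 1
    unfold tri
    rw [mul_sum]
    refine sum_congr rfl fun x1 _ => ?_
    rw [mul_sum]
    refine sum_congr rfl fun x2 _ => ?_
    rw [mul_sum]
    exact sum_congr rfl fun x3 _ => by ring
  rw [sum_congr rfl fun x0 _ => h2 x0, sum_comm]
  refine sum_congr rfl fun j _ => ?_
  rw [← mul_sum, sum_comm]

end

end Vale.Agent.P141.H606
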