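import Vale.Agent.P141.H606.FOK
import Vale.Agent.P141.H75.SpB

/-!
# P141, line W, end lemma (T_ker): the total of the main family

`tmain`: the total of the nodes of `udN ⊆ ud` is at most three times the number of the kernel part
plus the residual part; the moving slots are cut by the used cells of the region `ud`.
-/

namespace Vale.Agent.P141.H606

open Finset
open Vale.Agent.P141.PL.H571 (W)
open Vale.Agent.P141.PL.H95 (gr mem_gr card_gr gr_cube)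
open Vale.Agent.P141.H8 (Rgn Lab Fam2 NV T4 T4_congr mv)
open Vale.Agent.P141.H337 (ivm mem_ivm card_ivm)
open Vale.Agent.P141.H330 (nvT)
open Vale.Agent.P141.H911
open Vale.Agent.P141.H75 (und slt mem_und)
open Vale.Agent.P141.H935 (Ys)

noncomputable section

open scoped Classical

variable {Ω : Type*} {s o : ℤ} {gd ud udN : ℕ → ℤ → Prop} {K : ℕ} {xt : ℤ} {t : ℕ → ℤ → ℕ}
  {nd : Finset (ℕ × ℤ)} {le : ℕ × ℤ → ℤ}

/-- the moving slots may be cut by the used cells of a larger region -/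
theorem T4_ys {α : Type*} {nv : NV (gr 7 s) α} (hN : ∀ k y, udN k y → ud k y)
    (hc : ∀ k x y, y ∈ (gr 7 s).cube k x → (ud k y ↔ ud k x)) (A B : ℕ → ℤ → ℝ)
    (F : Fin 2 → ℕ → ℤ → ℝ) : T4 nv udN A B (mv t (F 0)) (mv t (F 1)) =
      T4 nv udN A B (Ys ud t (F 0)) (Ys ud t (F 1)) := by
  refine T4_congr fun k y hy z hz => ?_
  have h := (hc k y z hz).2 (hN k y hy)
  refine ⟨rfl, rfl, ?_, ?_⟩ <;>
  · unfold Ys mv
    rw [if_pos h]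

/-- the nodes of `udN ⊆ ud` -/
theorem nod_und (hnd : ∀ N ∈ nd, 1 ≤ N.1)
    (hsub : ∀ N ∈ nd, W N.1 N.2 ⊆ (gr 7 s).cube N.1 (le N)) (hN : ∀ k y, udN k y → ud k y) :
    Nod s ud K le (und nd le udN) where
  one N h := hnd N (mem_und.1 h).1
  sub N h := hsub N (mem_und.1 h).1
  use N h := hN _ _ (mem_und.1 h).2

/-- **The total of the main family**: kernel part and residual part. -/
theorem tmain (ho : o = 1 ∨ o = -1) (σ : Equiv.Perm (Fin 4))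
    (hsub : ∀ N ∈ nd, W N.1 N.2 ⊆ (gr 7 s).cube N.1 (le N)) (hnd : ∀ N ∈ nd, 1 ≤ N.1)
    (hR : Rgn (gr 7 s) gd K xt ud) (hx : ud K xt) (hN : ∀ k y, udN k y → ud k y)
    {F : Fin 2 → ℕ → ℤ → ℝ} {ε e Kp τ L D : ℝ} (hF : Fam2 (gr 7 s) ud K t F e Kp) (hε : 0 < ε)
    (hτ : 0 ≤ τ) (he : 0 ≤ e) (hL : 0 ≤ L) (hKp : 0 ≤ Kp) (PA PB : ℕ → ℤ → ℝ)
    {Kr Rr : ℕ → ℤ → ℤ → ℤ → ℤ → ℝ}
    (h : ∀ k m0 m1 n, (k, vz σ.symm o m0 m1 n) ∈ nd → udN k (le (k, vz σ.symm o m0 m1 n)) →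
      ∀ x0 ∈ ivm k m0, ∀ x1 ∈ ivm k m1, ∀ x2 ∈ ivm k n, ∀ x3 ∈ ivm k (qz o m0 m1 n),
        PA k (dd σ.symm 0 1 * x1 + dd σ.symm 0 2 * x2 + dd σ.symm 0 3 * x3) *
          PB k (dd σ.symm 1 0 * x0 + dd σ.symm 1 2 * x2 + dd σ.symm 1 3 * x3) =
          Kr k x0 x1 x2 x3 + Rr k x0 x1 x2 x3)
    (d : ℤ → ℤ → FibD Ω)
    (H : ∀ x0 ∈ Ico (0 : ℤ) (6 * 2 ^ K), ∀ x1 ∈ Ico (0 : ℤ) (6 * 2 ^ K),
      FibC σ.symm o K (und nd le udN) ud Kr τ L x0 x1 (d x0 x1))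
    (hD2 : ∑ x0 ∈ Ico (0 : ℤ) (6 * 2 ^ K), ∑ x1 ∈ Ico (0 : ℤ) (6 * 2 ^ K),
      ∑ b ∈ RB K (dd σ.symm 3 2) (bt2 σ.symm (al s K xt) x0 x1),
        DR (d x0 x1).a (d x0 x1).A2 K b ≤ D * 2 ^ K * (36 * 4 ^ K))
    (hD3 : ∑ x0 ∈ Ico (0 : ℤ) (6 * 2 ^ K), ∑ x1 ∈ Ico (0 : ℤ) (6 * 2 ^ K),
      ∑ b ∈ RB K (dd σ.symm 2 3) (bt3 σ.symm (al s K xt) x0 x1),
        DR (d x0 x1).b (d x0 x1).A3 K b ≤ D * 2 ^ K * (36 * 4 ^ K)) :
    T4 (nvT s ho nd le σ hsub) udN PA PB (mv t (F 0)) (mv t (F 1)) ≤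
      3 * TN ε τ (512 * e) L 157 (40192 * (Kp + 1)) D * 2 ^ K +
        (|dd σ.symm 3 2| : ℤ) * ((36 * (4 : ℝ) ^ K)⁻¹ * RP σ.symm o K (und nd le udN)
          (slt σ PA PB (Ys ud t (F 0)) (Ys ud t (F 1))) Rr) := by
  set A := slt σ PA PB (Ys ud t (F 0)) (Ys ud t (F 1)) with hA
  have h1 := H75.T4_split ho σ hsub (ud := udN) (K := K) hnd
    (fun N _ hu => (hR.bel _ _ (hN _ _ hu)).1) PA PB (Ys ud t (F 0)) (Ys ud t (F 1)) Kr Rr h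
  rw [T4_ys hN hR.const]
  refine h1.trans ?_
  have h2 := tker_rgn (σ := σ.symm) ho hR hx (nod_und hnd hsub hN) hF hε hτ he hL hKp
    (A := A) (fun k => by rw [hA, H75.slt_2]) (fun k => by rw [hA, H75.slt_3]) d H hD2 hD3
  have h3 : (((|dd σ.symm 3 2| : ℤ)) : ℝ) ≤ 3 := by exact_mod_cast dd_abs_le σ.symm 3 2
  have h4 : 0 ≤ ∑ x0 ∈ Ico (0 : ℤ) (6 * 2 ^ K), ∑ x1 ∈ Ico (0 : ℤ) (6 * 2 ^ K),
      KP σ.symm o K (und nd le udN) A Kr x0 x1 :=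
    sum_nonneg fun _ _ => sum_nonneg fun _ _ => KP_nonneg _ _ _ _ _ _ _ _
  have h6 : (0 : ℝ) ≤ (36 * (4 : ℝ) ^ K)⁻¹ := by positivity
  have h7 := mul_le_mul h3 h2 (mul_nonneg h6 h4) (by norm_num)
  rw [← hA, mul_add, mul_add]
  refine add_le_add (h7.trans (le_of_eq ?_)) le_rfl
  ring

end

end Vale.Agent.P141.H606
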