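import Vale.Agent.P141.H606.Reg
import Vale.Agent.P141.PL.H855.StepDefs

/-!
# P141, line W, end lemma (E-AG): from the nodes to the fibres

`τ` is the order of the roles (0 = structured slot, 1 = uniform slot, 2 and 3 = block slots); the
coordinates are named by the roles.  The value of a node is the same on all the boxes
`nn o v a b`; the average over `0 ≤ a, b < 2 ^ (Λ - k)` gives

* `nodes_le`: the total over the nodes is at most `4 ^ (-Λ)` times the sum over `z = (y0, y1)` of the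
  sums over the boxes of the fibre `z`.
-/

namespace Vale.Agent.P141.H606

open Finset Vale.Agent.P141.PL.H315 Vale.Agent.P141.H337
open Vale.Agent.P141.PL.H620
open Vale.Agent.P141.PL.H855 (wN)

noncomputable section

/-- the Haar sign on the dyadic intervals -/
def hs (k : ℕ) (x : ℤ) : ℝ := if 2 * (x % 2 ^ k) < 2 ^ k then 1 else -1

theorem hs_pt (k : ℕ) (n : Fin 4 → ℤ) {x : Fin 4 → ℕ} (hx : x ∈ pts k) (i : Fin 4) :
    hs k (pt k n x i) = sg k (x i) := by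
  unfold pts at hx
  rw [Fintype.mem_piFinset] at hx
  have h1 := mem_range.1 (hx i)
  have h2 : ((x i : ℕ) : ℤ) < 2 ^ k := by exact_mod_cast h1
  have h3 : pt k n x i % 2 ^ k = (x i : ℤ) := by
    unfold pt
    rw [add_comm, Int.add_mul_emod_self_left, Int.emod_eq_of_lt (by positivity) h2]
  unfold hs sg
  rw [h3]
  have h4 : (2 * ((x i : ℕ) : ℤ) < 2 ^ k) ↔ (2 * x i < 2 ^ k) := by exact_mod_cast Iff.rfl
  simp only [h4]

theorem sum_pts (k : ℕ) (n : Fin 4 → ℤ) (F : (Fin 4 → ℤ) → ℝ) :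
    ∑ x ∈ pts k, F (pt k n x) = ∑ X ∈ Fintype.piFinset (fun i => ivm k (n i)), F X := by
  refine sum_nbij' (fun x => pt k n x) (fun X i => (X i - 2 ^ k * n i).toNat) ?_ ?_ ?_ ?_ ?_
  · intro x hx
    unfold pts at hx
    rw [Fintype.mem_piFinset] at hx ⊢
    intro i
    have h1 := mem_range.1 (hx i)
    have h2 : ((x i : ℕ) : ℤ) < 2 ^ k := by exact_mod_cast h1
    unfold ivm pt
    rw [mem_Ico]
    constructor <;> [skip; linarith]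
    linarith [Int.natCast_nonneg (x i)]
  · intro X hX
    unfold pts
    rw [Fintype.mem_piFinset] at hX ⊢
    intro i
    have h1 := hX i
    unfold ivm at h1
    rw [mem_Ico] at h1
    rw [mem_range]
    zify
    rw [Int.toNat_of_nonneg (by linarith)]
    linarith
  · intro x _
    funext i
    unfold pt
    simp
  · intro X hX
    rw [Fintype.mem_piFinset] at hX
    funext i
    have h1 := hX i
    unfold ivm at h1
    rw [mem_Ico] at h1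
    unfold pt
    rw [Int.toNat_of_nonneg (by linarith)]
    ring
  · intro x _
    rfl

theorem sum_pi_perm (τ : Equiv.Perm (Fin 4)) (J : Fin 4 → Finset ℤ) (F : (Fin 4 → ℤ) → ℝ) :
    ∑ X ∈ Fintype.piFinset J, F X =
      ∑ y ∈ Fintype.piFinset (fun r => J (τ r)), F (fun j => y (τ.symm j)) := by
  refine sum_nbij' (fun X r => X (τ r)) (fun y j => y (τ.symm j)) ?_ ?_ ?_ ?_ ?_
  · intro X hX
    rw [Fintype.mem_piFinset] at hX ⊢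
    exact fun r => hX _
  · intro y hy
    rw [Fintype.mem_piFinset] at hy ⊢
    intro j
    have := hy (τ.symm j)
    rwa [Equiv.apply_symm_apply] at this
  · intro X _
    funext j
    simp
  · intro y _
    funext j
    simp
  · intro X _
    congr 1
    funext j
    simp

theorem sum_pi4 (J : Fin 4 → Finset ℤ) (F : (Fin 4 → ℤ) → ℝ) :
    ∑ y ∈ Fintype.piFinset J, F y =
      ∑ a ∈ J 0, ∑ b ∈ J 1, ∑ c ∈ J 2, ∑ d ∈ J 3, F ![a, b, c, d] := by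
  have h : ∑ a ∈ J 0, ∑ b ∈ J 1, ∑ c ∈ J 2, ∑ d ∈ J 3, F ![a, b, c, d] =
      ∑ p ∈ J 0 ×ˢ J 1 ×ˢ J 2 ×ˢ J 3, F ![p.1, p.2.1, p.2.2.1, p.2.2.2] := by
    rw [sum_product]
    refine sum_congr rfl fun a _ => ?_
    rw [sum_product]
    refine sum_congr rfl fun b _ => ?_
    rw [sum_product]
  rw [h]
  refine sum_nbij' (fun y => (y 0, y 1, y 2, y 3)) (fun p => ![p.1, p.2.1, p.2.2.1, p.2.2.2])
    ?_ ?_ ?_ ?_ ?_
  · intro y hy
    rw [Fintype.mem_piFinset] at hy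
    simp only [mem_product]
    exact ⟨hy 0, hy 1, hy 2, hy 3⟩
  · intro p hp
    simp only [mem_product] at hp
    rw [Fintype.mem_piFinset]
    intro i
    fin_cases i
    · exact hp.1
    · exact hp.2.1
    · exact hp.2.2.1
    · exact hp.2.2.2
  · intro y _
    funext i
    fin_cases i <;> rfl
  · intro p _
    rfl
  · intro y _
    congr 1
    funext i
    fin_cases i <;> rfl

/-- the difference of the labels of two roles -/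
def dl (τ : Equiv.Perm (Fin 4)) (r t : Fin 4) : ℤ := ((τ r : ℕ) : ℤ) - ((τ t : ℕ) : ℤ)

/-- the kernel of the fibre -/
def kerS (τ : Equiv.Perm (Fin 4)) (P G : ℤ → ℝ) (y0 y1 y2 y3 : ℤ) : ℝ :=
  P (dl τ 1 0 * y1 + dl τ 2 0 * y2 + dl τ 3 0 * y3) *
    G (dl τ 0 1 * y0 + dl τ 2 1 * y2 + dl τ 3 1 * y3)

/-- the argument of the slot of role 2 -/
def sl2 (τ : Equiv.Perm (Fin 4)) (y0 y1 y3 : ℤ) : ℤ :=
  dl τ 0 2 * y0 + dl τ 1 2 * y1 + dl τ 3 2 * y3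

/-- the argument of the slot of role 3 -/
def sl3 (τ : Equiv.Perm (Fin 4)) (y0 y1 y2 : ℤ) : ℤ :=
  dl τ 0 3 * y0 + dl τ 1 3 * y1 + dl τ 2 3 * y2

/-- the box `(k; m2, m3)` of the fibre `(y0, y1)` -/
def bx (τ : Equiv.Perm (Fin 4)) (P G X Y : ℤ → ℝ) (k : ℕ) (y0 y1 m2 m3 : ℤ) : ℝ :=
  |av2 (ivm k m2) (ivm k m3) fun y2 y3 => (hs k y2 * Y (sl3 τ y0 y1 y2)) *
    kerS τ P G y0 y1 y2 y3 * (hs k y3 * X (sl2 τ y0 y1 y3))|

theorem bx_nonneg (τ : Equiv.Perm (Fin 4)) (P G X Y : ℤ → ℝ) (k : ℕ) (y0 y1 m2 m3 : ℤ) :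
    0 ≤ bx τ P G X Y k y0 y1 m2 m3 := abs_nonneg _

theorem av2_ivm (k : ℕ) (m2 m3 : ℤ) (f : ℤ → ℤ → ℝ) :
    ∑ x ∈ ivm k m2, ∑ y ∈ ivm k m3, f x y = 4 ^ k * av2 (ivm k m2) (ivm k m3) f := by
  unfold av2 avg
  rw [card_ivm, card_ivm, ← mul_sum]
  push_cast
  have h : (4 : ℝ) ^ k = 2 ^ k * 2 ^ k := by rw [← mul_pow]; norm_num
  rw [h]
  have h2 : (2 : ℝ) ^ k ≠ 0 := by positivity
  field_simp

theorem wN_le (o v a b : ℤ) (τ : Equiv.Perm (Fin 4)) (P G X Y : ℤ → ℝ) (k : ℕ) :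
    |wN o (fun j => ![P, G, X, Y] (τ.symm j)) (k, v)| ≤
      ((2 : ℝ) ^ k)⁻¹ * ∑ y0 ∈ ivm k (nn o v a b (τ 0)), ∑ y1 ∈ ivm k (nn o v a b (τ 1)),
        bx τ P G X Y k y0 y1 (nn o v a b (τ 2)) (nn o v a b (τ 3)) := by
  set f : Fin 4 → ℤ → ℝ := fun j => ![P, G, X, Y] (τ.symm j) with hf
  have e1 : loc1 k (nn o v 0 0) f = loc1 k (nn o v a b) f := by rw [loc1_nn, loc1_nn]
  have e2 : loc1 k (nn o v a b) f = ((2 : ℝ) ^ k)⁻¹ *
      ∑ y0 ∈ ivm k (nn o v a b (τ 0)), ∑ y1 ∈ ivm k (nn o v a b (τ 1)),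
        hs k y0 * hs k y1 * ∑ y2 ∈ ivm k (nn o v a b (τ 2)), ∑ y3 ∈ ivm k (nn o v a b (τ 3)),
          (hs k y2 * Y (sl3 τ y0 y1 y2)) * kerS τ P G y0 y1 y2 y3 *
            (hs k y3 * X (sl2 τ y0 y1 y3)) := by
    unfold loc1
    congr 1
    have h1 : ∀ x ∈ pts k, (∏ i, sg k (x i)) * ∏ j, f j (ell j (pt k (nn o v a b) x)) =
        (fun Z : Fin 4 → ℤ => (∏ i, hs k (Z i)) * ∏ j, f j (ell j Z)) (pt k (nn o v a b) x) := by
      intro x hx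
      show _ = (∏ i, hs k (pt k (nn o v a b) x i)) * _
      congr 1
      exact prod_congr rfl fun i _ => (hs_pt k _ hx i).symm
    rw [sum_congr rfl h1, sum_pts k (nn o v a b)
      (fun Z : Fin 4 → ℤ => (∏ i, hs k (Z i)) * ∏ j, f j (ell j Z)), sum_pi_perm τ, sum_pi4]
    refine sum_congr rfl fun y0 _ => sum_congr rfl fun y1 _ => ?_
    rw [mul_sum]
    refine sum_congr rfl fun y2 _ => ?_
    rw [mul_sum]
    refine sum_congr rfl fun y3 _ => ?_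
    have hp1 : ∏ i, hs k (![y0, y1, y2, y3] (τ.symm i)) = ∏ r, hs k (![y0, y1, y2, y3] r) :=
      Equiv.prod_comp τ.symm fun r => hs k (![y0, y1, y2, y3] r)
    have hp2 : ∏ j, f j (ell j fun j => ![y0, y1, y2, y3] (τ.symm j)) =
        ∏ r, f (τ r) (ell (τ r) fun j => ![y0, y1, y2, y3] (τ.symm j)) :=
      (Equiv.prod_comp τ fun j => f j (ell j fun j => ![y0, y1, y2, y3] (τ.symm j))).symm
    have hl : ∀ r, ell (τ r) (fun j => ![y0, y1, y2, y3] (τ.symm j)) =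
        ∑ t, dl τ t r * ![y0, y1, y2, y3] t := by
      intro r
      unfold ell dl
      rw [← Equiv.sum_comp τ]
      refine sum_congr rfl fun t _ => ?_
      simp
    rw [hp1, hp2]
    simp only [hl, hf, Equiv.symm_apply_apply]
    rw [Fin.prod_univ_four, Fin.prod_univ_four]
    simp only [Fin.sum_univ_four, Matrix.cons_val_zero, Matrix.cons_val_one, Matrix.cons_val,
      kerS, sl2, sl3]
    have d0 : ∀ r, dl τ r r = 0 := fun r => by unfold dl; ring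
    simp only [d0, zero_mul, zero_add, add_zero]
    ring
  show |((4 : ℝ) ^ k)⁻¹ * loc1 k (nn o v 0 0) f| ≤ _
  rw [e1, e2, ← mul_assoc, abs_mul, abs_of_nonneg (by positivity)]
  have e3 : |∑ y0 ∈ ivm k (nn o v a b (τ 0)), ∑ y1 ∈ ivm k (nn o v a b (τ 1)),
        hs k y0 * hs k y1 * ∑ y2 ∈ ivm k (nn o v a b (τ 2)), ∑ y3 ∈ ivm k (nn o v a b (τ 3)),
          (hs k y2 * Y (sl3 τ y0 y1 y2)) * kerS τ P G y0 y1 y2 y3 *
            (hs k y3 * X (sl2 τ y0 y1 y3))| ≤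
      4 ^ k * ∑ y0 ∈ ivm k (nn o v a b (τ 0)), ∑ y1 ∈ ivm k (nn o v a b (τ 1)),
        bx τ P G X Y k y0 y1 (nn o v a b (τ 2)) (nn o v a b (τ 3)) := by
    refine (abs_sum_le_sum_abs _ _).trans ?_
    rw [mul_sum]
    refine sum_le_sum fun y0 _ => (abs_sum_le_sum_abs _ _).trans ?_
    rw [mul_sum]
    refine sum_le_sum fun y1 _ => ?_
    have hh : ∀ y, |hs k y| = 1 := by intro y; unfold hs; split_ifs <;> simp
    rw [av2_ivm, abs_mul, abs_mul, abs_mul, hh, hh, one_mul, one_mul,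
      abs_of_nonneg (a := (4 : ℝ) ^ k) (by positivity)]
    rfl
  refine (mul_le_mul_of_nonneg_left e3 (by positivity)).trans (le_of_eq ?_)
  have h4 : (4 : ℝ) ^ k ≠ 0 := by positivity
  field_simp

/-- sums along an injection -/
theorem sum_le_of_inj {α β : Type*} {s : Finset α} {t : Finset β} {F : α → ℝ} {G : β → ℝ}
    (φ : α → β) (hφ : ∀ i ∈ s, φ i ∈ t) (hinj : Set.InjOn φ s) (hF : ∀ i ∈ s, F i ≤ G (φ i))
    (hG : ∀ j ∈ t, 0 ≤ G j) : ∑ i ∈ s, F i ≤ ∑ j ∈ t, G j := by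
  classical
  calc ∑ i ∈ s, F i ≤ ∑ i ∈ s, G (φ i) := sum_le_sum hF
    _ = ∑ j ∈ s.image φ, G j := (sum_image fun x hx y hy h => hinj hx hy h).symm
    _ ≤ _ := by
        refine sum_le_sum_of_subset_of_nonneg ?_ fun j hj _ => hG j hj
        intro j hj
        obtain ⟨i, hi, rfl⟩ := mem_image.1 hj
        exact hφ i hi

/-- the sum of the two last indices of a box of the fibre -/
def cz (o : ℤ) (k : ℕ) (y0 y1 : ℤ) : ℤ := o - 2 - y0 / 2 ^ k - y1 / 2 ^ k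

/-- the node of a box of the fibre -/
def vz (o : ℤ) (τ : Equiv.Perm (Fin 4)) (k : ℕ) (y0 y1 m : ℤ) : ℤ :=
  ((τ 0 : ℕ) : ℤ) * (y0 / 2 ^ k) + ((τ 1 : ℕ) : ℤ) * (y1 / 2 ^ k) + ((τ 2 : ℕ) : ℤ) * m +
    ((τ 3 : ℕ) : ℤ) * (cz o k y0 y1 - m)

/-- the used boxes of the fibre under two roots -/
def Ub (o : ℤ) (τ : Equiv.Perm (Fin 4)) (𝒲 : Finset (ℕ × ℤ)) (Λ : ℕ) (y0 y1 b2 b3 : ℤ) (k : ℕ) :
    Finset ℤ :=
  (cel Λ b2 k).filter fun m => cz o k y0 y1 - m ∈ cel Λ b3 k ∧ (k, vz o τ k y0 y1 m) ∈ 𝒲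

/-- left ends of the windows of the coordinates -/
def Al (Λ : ℕ) (α : ℤ) : Fin 4 → ℤ := ![-α - 131 * 2 ^ Λ, α - 5 * 2 ^ Λ, 0, 0]

/-- the window of a coordinate -/
def ZS (Λ : ℕ) (A : ℤ) : Finset ℤ := Ico A (A + 140 * 2 ^ Λ)

/-- the roots of a coordinate -/
def RS (Λ : ℕ) (A : ℤ) : Finset ℤ := Icc (A / 2 ^ Λ) (A / 2 ^ Λ + 140)

theorem card_ZS (Λ : ℕ) (A : ℤ) : ((ZS Λ A).card : ℝ) = 140 * 2 ^ Λ := by
  unfold ZS
  rw [Int.card_Ico]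
  have : (A + 140 * 2 ^ Λ - A : ℤ) = ((140 * 2 ^ Λ : ℕ) : ℤ) := by push_cast; ring
  rw [this, Int.toNat_natCast]
  push_cast
  ring

theorem card_RS (Λ : ℕ) (A : ℤ) : ((RS Λ A).card : ℝ) = 141 := by
  unfold RS
  rw [Int.card_Icc]
  have : (A / 2 ^ Λ + 140 + 1 - A / 2 ^ Λ : ℤ) = ((141 : ℕ) : ℤ) := by push_cast; ring
  rw [this, Int.toNat_natCast]
  norm_num

theorem mem_cel {K : ℕ} {b0 : ℤ} {k : ℕ} {m : ℤ} : m ∈ cel K b0 k ↔ m / 2 ^ (K - k) = b0 := by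
  have h2 : (0 : ℤ) < 2 ^ (K - k) := by positivity
  unfold cel
  rw [mem_Ico]
  constructor
  · rintro ⟨h, h'⟩
    refine le_antisymm ?_ ?_
    · refine Int.lt_add_one_iff.mp (Int.ediv_lt_of_lt_mul h2 ?_)
      rw [mul_comm]; exact h'
    · refine Int.le_ediv_of_mul_le h2 ?_
      rw [mul_comm]; exact h
  · rintro rfl
    have h3 := Int.mul_ediv_add_emod m (2 ^ (K - k))
    have h4 := Int.emod_nonneg m h2.ne'
    have h5 := Int.emod_lt_of_pos m h2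
    constructor
    · linarith
    · rw [mul_add]; linarith

theorem nn_range {o : ℤ} (ho : o = 1 ∨ o = -1) {Λ k : ℕ} (hk : k ≤ Λ) {α v a b : ℤ}
    (h1 : α ≤ 2 ^ k * v) (h2 : 2 ^ k * v < α + 2 ^ (Λ + 7)) (ha : 0 ≤ a ∧ a < 2 ^ (Λ - k))
    (hb : 0 ≤ b ∧ b < 2 ^ (Λ - k)) (j : Fin 4) {y : ℤ} (hy : y ∈ ivm k (nn o v a b j)) :
    y ∈ ZS Λ (Al Λ α j) := by
  have hp : (2 : ℤ) ^ Λ = 2 ^ k * 2 ^ (Λ - k) := by rw [← pow_add]; congr 1; omega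
  have hk1 : (1 : ℤ) ≤ 2 ^ k := one_le_pow₀ (by norm_num)
  have hd1 : (1 : ℤ) ≤ 2 ^ (Λ - k) := one_le_pow₀ (by norm_num)
  have h7 : (2 : ℤ) ^ (Λ + 7) = 128 * 2 ^ Λ := by rw [pow_add]; ring
  rw [h7] at h2
  have ha2 : 2 ^ k * a + 2 ^ k ≤ (2 : ℤ) ^ Λ := by
    rw [hp]; nlinarith [ha.2]
  have hb2 : 2 ^ k * b + 2 ^ k ≤ (2 : ℤ) ^ Λ := by
    rw [hp]; nlinarith [hb.2]
  have ha0 : 0 ≤ (2 : ℤ) ^ k * a := mul_nonneg (by positivity) ha.1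
  have hb0 : 0 ≤ (2 : ℤ) ^ k * b := mul_nonneg (by positivity) hb.1
  have hkΛ : (2 : ℤ) ^ k ≤ 2 ^ Λ := pow_le_pow_right₀ (by norm_num) hk
  unfold ivm at hy
  rw [mem_Ico] at hy
  unfold ZS Al
  rw [mem_Ico]
  generalize (2 : ℤ) ^ k = q at *
  generalize (2 : ℤ) ^ Λ = Q at *
  generalize (2 : ℤ) ^ (Λ - k) = D at *
  fin_cases j
  · simp only [nn, Fin.zero_eta, Matrix.cons_val_zero] at hy ⊢
    have e : q * (o - 2 - v + a + 2 * b) = q * (o - 2) - q * v + q * a + 2 * (q * b) := by ring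
    rw [e] at hy
    rcases ho with rfl | rfl
    · constructor <;> linarith
    · constructor <;> linarith
  · simp only [nn, Fin.mk_one, Matrix.cons_val_one, Matrix.cons_val_zero] at hy ⊢
    have e : q * (v - 2 * a - 3 * b) = q * v - 2 * (q * a) - 3 * (q * b) := by ring
    rw [e] at hy
    constructor <;> linarith
  · simp only [nn, Fin.reduceFinMk, Matrix.cons_val] at hy ⊢
    constructor <;> linarith
  · simp only [nn, Fin.reduceFinMk, Matrix.cons_val] at hy ⊢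
    constructor <;> linarith

theorem root_mem {Λ k : ℕ} (hk : k ≤ Λ) {A m : ℤ} (h : 2 ^ k * m ∈ ZS Λ A) :
    m / 2 ^ (Λ - k) ∈ RS Λ A := by
  have hp : (2 : ℤ) ^ Λ = 2 ^ k * 2 ^ (Λ - k) := by rw [← pow_add]; congr 1; omega
  have hq : (0 : ℤ) < 2 ^ Λ := by positivity
  have e : m / 2 ^ (Λ - k) = (2 ^ k * m) / 2 ^ Λ := by
    rw [hp, Int.mul_ediv_mul_of_pos _ _ (by positivity)]
  unfold ZS at h
  unfold RS
  rw [mem_Ico] at h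
  rw [mem_Icc, e]
  constructor
  · exact Int.ediv_le_ediv hq h.1
  · have h1 : (2 ^ k * m) / 2 ^ Λ ≤ (A + 140 * 2 ^ Λ) / 2 ^ Λ := Int.ediv_le_ediv hq h.2.le
    rwa [Int.add_mul_ediv_right _ _ hq.ne'] at h1

/-- the sums over a box in the order of the roles -/
theorem nn_perm (o v a b : ℤ) (τ : Equiv.Perm (Fin 4)) :
    nn o v a b (τ 0) + nn o v a b (τ 1) + nn o v a b (τ 2) + nn o v a b (τ 3) = o - 2 ∧
    ((τ 0 : ℕ) : ℤ) * nn o v a b (τ 0) + ((τ 1 : ℕ) : ℤ) * nn o v a b (τ 1) +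
      ((τ 2 : ℕ) : ℤ) * nn o v a b (τ 2) + ((τ 3 : ℕ) : ℤ) * nn o v a b (τ 3) = v := by
  constructor
  · have h := nn_sum o v a b
    rw [← Equiv.sum_comp τ, Fin.sum_univ_four] at h
    exact h
  · have h : ∑ i : Fin 4, ((i : ℕ) : ℤ) * nn o v a b i = v := by
      simp only [nn, Fin.sum_univ_four, Matrix.cons_val_zero, Matrix.cons_val_one,
        Matrix.cons_val, Fin.coe_ofNat_eq_mod]
      norm_num
      ring
    rw [← Equiv.sum_comp τ, Fin.sum_univ_four] at h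
    exact h

/-- the total over the used boxes of the fibre `(y0, y1)` under the roots `b2`, `b3` -/
def Fz (o : ℤ) (τ : Equiv.Perm (Fin 4)) (𝒲 : Finset (ℕ × ℤ)) (Λ : ℕ) (P G X Y : ℕ → ℤ → ℝ)
    (y0 y1 b2 b3 : ℤ) : ℝ :=
  ∑ k ∈ range Λ, ∑ m ∈ Ub o τ 𝒲 Λ y0 y1 b2 b3 (k + 1),
    2 ^ (k + 1) * bx τ (P (k + 1)) (G (k + 1)) (X (k + 1)) (Y (k + 1)) (k + 1) y0 y1 m
      (cz o (k + 1) y0 y1 - m)

/-- **From the nodes to the fibres.** -/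
theorem nodes_le {o : ℤ} (ho : o = 1 ∨ o = -1) (τ : Equiv.Perm (Fin 4)) {Λ : ℕ} {α : ℤ}
    {𝒲 : Finset (ℕ × ℤ)} (hW : ∀ N ∈ 𝒲, 1 ≤ N.1 ∧ N.1 ≤ Λ)
    (hα : ∀ N ∈ 𝒲, α ≤ 2 ^ N.1 * N.2 ∧ 2 ^ N.1 * N.2 < α + 2 ^ (Λ + 7))
    (P G X Y : ℕ → ℤ → ℝ) :
    ∑ N ∈ 𝒲, |wN o (fun j => ![P N.1, G N.1, X N.1, Y N.1] (τ.symm j)) N| ≤
      ((4 : ℝ) ^ Λ)⁻¹ * ∑ y0 ∈ ZS Λ (Al Λ α (τ 0)), ∑ y1 ∈ ZS Λ (Al Λ α (τ 1)),
        ∑ b2 ∈ RS Λ (Al Λ α (τ 2)), ∑ b3 ∈ RS Λ (Al Λ α (τ 3)),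
          Fz o τ 𝒲 Λ P G X Y y0 y1 b2 b3 := by
  classical
  set Q : ℕ → Finset (ℤ × ℤ) := fun k =>
    Ico (0 : ℤ) (2 ^ (Λ - k)) ×ˢ Ico (0 : ℤ) (2 ^ (Λ - k)) with hQ
  have hQc : ∀ k, ((Q k).card : ℝ) = 4 ^ (Λ - k) := by
    intro k
    simp only [hQ, card_product, Int.card_Ico, sub_zero]
    have : ((2 : ℤ) ^ (Λ - k)).toNat = 2 ^ (Λ - k) := by
      have h : (2 : ℤ) ^ (Λ - k) = ((2 ^ (Λ - k) : ℕ) : ℤ) := by push_cast; rfl
      rw [h, Int.toNat_natCast]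
    rw [this]
    push_cast
    rw [← mul_pow]; norm_num
  -- one node
  have h1 : ∀ N ∈ 𝒲, |wN o (fun j => ![P N.1, G N.1, X N.1, Y N.1] (τ.symm j)) N| ≤
      ((4 : ℝ) ^ Λ)⁻¹ * ∑ ab ∈ Q N.1, ∑ y ∈ ivm N.1 (nn o N.2 ab.1 ab.2 (τ 0)) ×ˢ
        ivm N.1 (nn o N.2 ab.1 ab.2 (τ 1)), 2 ^ N.1 *
          bx τ (P N.1) (G N.1) (X N.1) (Y N.1) N.1 y.1 y.2 (nn o N.2 ab.1 ab.2 (τ 2))
            (nn o N.2 ab.1 ab.2 (τ 3)) := by
    rintro ⟨k, v⟩ hN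
    have hkΛ : k ≤ Λ := (hW _ hN).2
    have h2 : ∀ ab ∈ Q k, |wN o (fun j => ![P k, G k, X k, Y k] (τ.symm j)) (k, v)| ≤
        ((2 : ℝ) ^ k)⁻¹ * ∑ y ∈ ivm k (nn o v ab.1 ab.2 (τ 0)) ×ˢ
          ivm k (nn o v ab.1 ab.2 (τ 1)), bx τ (P k) (G k) (X k) (Y k) k y.1 y.2
            (nn o v ab.1 ab.2 (τ 2)) (nn o v ab.1 ab.2 (τ 3)) := by
      intro ab _
      rw [sum_product]
      exact wN_le o v ab.1 ab.2 τ (P k) (G k) (X k) (Y k) k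
    have h3 := sum_le_sum h2
    rw [sum_const, nsmul_eq_mul, hQc, ← mul_sum] at h3
    have h4 : (4 : ℝ) ^ Λ = 4 ^ k * 4 ^ (Λ - k) := by rw [← pow_add]; congr 1; omega
    have h5 : (4 : ℝ) ^ k = 2 ^ k * 2 ^ k := by rw [← mul_pow]; norm_num
    have h6 : (0 : ℝ) < 2 ^ k := by positivity
    have h7 : (0 : ℝ) < 4 ^ (Λ - k) := by positivity
    show |wN o (fun j => ![P k, G k, X k, Y k] (τ.symm j)) (k, v)| ≤ _
    simp_rw [← mul_sum]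
    rw [h4, h5]
    rw [← le_div_iff₀' h7] at h3
    refine h3.trans (le_of_eq ?_)
    field_simp
  refine (sum_le_sum h1).trans ?_
  rw [← mul_sum]
  refine mul_le_mul_of_nonneg_left ?_ (by positivity)
  -- flatten both sides
  have eR : ∑ y0 ∈ ZS Λ (Al Λ α (τ 0)), ∑ y1 ∈ ZS Λ (Al Λ α (τ 1)),
        ∑ b2 ∈ RS Λ (Al Λ α (τ 2)), ∑ b3 ∈ RS Λ (Al Λ α (τ 3)),
          Fz o τ 𝒲 Λ P G X Y y0 y1 b2 b3 =
      ∑ p ∈ (ZS Λ (Al Λ α (τ 0)) ×ˢ ZS Λ (Al Λ α (τ 1)) ×ˢ RS Λ (Al Λ α (τ 2)) ×ˢ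
          RS Λ (Al Λ α (τ 3)) ×ˢ range Λ).sigma
          (fun p => Ub o τ 𝒲 Λ p.1 p.2.1 p.2.2.1 p.2.2.2.1 (p.2.2.2.2 + 1)),
        2 ^ (p.1.2.2.2.2 + 1) * bx τ (P (p.1.2.2.2.2 + 1)) (G (p.1.2.2.2.2 + 1))
          (X (p.1.2.2.2.2 + 1)) (Y (p.1.2.2.2.2 + 1)) (p.1.2.2.2.2 + 1) p.1.1 p.1.2.1 p.2
          (cz o (p.1.2.2.2.2 + 1) p.1.1 p.1.2.1 - p.2) := by
    rw [sum_sigma, sum_product]
    refine sum_congr rfl fun y0 _ => ?_
    rw [sum_product]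
    refine sum_congr rfl fun y1 _ => ?_
    rw [sum_product]
    refine sum_congr rfl fun b2 _ => ?_
    rw [sum_product]
    rfl
  rw [eR]
  have eL : ∑ N ∈ 𝒲, ∑ ab ∈ Q N.1, ∑ y ∈ ivm N.1 (nn o N.2 ab.1 ab.2 (τ 0)) ×ˢ
        ivm N.1 (nn o N.2 ab.1 ab.2 (τ 1)), 2 ^ N.1 *
          bx τ (P N.1) (G N.1) (X N.1) (Y N.1) N.1 y.1 y.2 (nn o N.2 ab.1 ab.2 (τ 2))
            (nn o N.2 ab.1 ab.2 (τ 3)) =
      ∑ p ∈ (𝒲.sigma fun N => Q N.1).sigma (fun p => ivm p.1.1 (nn o p.1.2 p.2.1 p.2.2 (τ 0)) ×ˢ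
          ivm p.1.1 (nn o p.1.2 p.2.1 p.2.2 (τ 1))),
        2 ^ p.1.1.1 * bx τ (P p.1.1.1) (G p.1.1.1) (X p.1.1.1) (Y p.1.1.1) p.1.1.1 p.2.1 p.2.2
          (nn o p.1.1.2 p.1.2.1 p.1.2.2 (τ 2)) (nn o p.1.1.2 p.1.2.1 p.1.2.2 (τ 3)) := by
    rw [sum_sigma, sum_sigma]
  rw [eL]
  refine sum_le_of_inj (fun p => ⟨(p.2.1, p.2.2,
    nn o p.1.1.2 p.1.2.1 p.1.2.2 (τ 2) / 2 ^ (Λ - p.1.1.1),
    nn o p.1.1.2 p.1.2.1 p.1.2.2 (τ 3) / 2 ^ (Λ - p.1.1.1), p.1.1.1 - 1),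
    nn o p.1.1.2 p.1.2.1 p.1.2.2 (τ 2)⟩) ?_ ?_ ?_ ?_
  · rintro ⟨⟨⟨k, v⟩, ⟨a, b⟩⟩, ⟨y0, y1⟩⟩ hp
    simp only [mem_sigma, mem_product, hQ, mem_Ico] at hp
    obtain ⟨⟨hN, ha, hb⟩, hy0, hy1⟩ := hp
    have hkΛ : k ≤ Λ := (hW _ hN).2
    have hk1 : 1 ≤ k := (hW _ hN).1
    have hkk : k - 1 + 1 = k := by omega
    have hr : ∀ j y, y ∈ ivm k (nn o v a b j) → y ∈ ZS Λ (Al Λ α j) := fun j y hy =>
      nn_range ho hkΛ (hα _ hN).1 (hα _ hN).2 ha hb j hy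
    have hz0 := mem_ivm.1 hy0
    have hz1 := mem_ivm.1 hy1
    obtain ⟨hs1, hs2⟩ := nn_perm o v a b τ
    have hc : cz o k y0 y1 - nn o v a b (τ 2) = nn o v a b (τ 3) := by
      unfold cz; rw [hz0, hz1]; linarith
    have hv : vz o τ k y0 y1 (nn o v a b (τ 2)) = v := by
      unfold vz; rw [hc, hz0, hz1]; exact hs2
    have hl : ∀ j, (2 : ℤ) ^ k * nn o v a b j ∈ ivm k (nn o v a b j) := fun j => by
      rw [mem_ivm]; exact Int.mul_ediv_cancel_left _ (by positivity)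
    simp only [mem_sigma, mem_product, mem_range, hkk]
    refine ⟨⟨hr _ _ hy0, hr _ _ hy1, root_mem hkΛ (hr _ _ (hl _)), root_mem hkΛ (hr _ _ (hl _)),
      by omega⟩, ?_⟩
    unfold Ub
    rw [mem_filter, mem_cel, mem_cel, hc, hv]
    exact ⟨rfl, rfl, hN⟩
  · rintro ⟨⟨⟨k, v⟩, ⟨a, b⟩⟩, ⟨y0, y1⟩⟩ hp ⟨⟨⟨k', v'⟩, ⟨a', b'⟩⟩, ⟨y0', y1'⟩⟩ hp' h
    simp only [coe_sigma, Set.mem_sigma_iff, mem_coe, hQ, mem_Ico, coe_product,
      Set.mem_prod] at hp hp'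
    obtain ⟨⟨hN, ha, hb⟩, hy0, hy1⟩ := hp
    obtain ⟨⟨hN', ha', hb'⟩, hy0', hy1'⟩ := hp'
    have hk1 : 1 ≤ k := (hW _ hN).1
    have hk1' : 1 ≤ k' := (hW _ hN').1
    simp only [Sigma.mk.injEq, Prod.mk.injEq, heq_eq_eq] at h
    obtain ⟨⟨e0, e1, -, -, ek⟩, e2⟩ := h
    have ekk : k = k' := by omega
    subst ekk e0 e1
    have hz0 := mem_ivm.1 hy0
    have hz1 := mem_ivm.1 hy1
    have hz0' := mem_ivm.1 hy0'
    have hz1' := mem_ivm.1 hy1'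
    obtain ⟨hs1, hs2⟩ := nn_perm o v a b τ
    obtain ⟨hs1', hs2'⟩ := nn_perm o v' a' b' τ
    have f0 : nn o v a b (τ 0) = nn o v' a' b' (τ 0) := by rw [← hz0, ← hz0']
    have f1 : nn o v a b (τ 1) = nn o v' a' b' (τ 1) := by rw [← hz1, ← hz1']
    have f3 : nn o v a b (τ 3) = nn o v' a' b' (τ 3) := by linarith
    have fv : v = v' := by rw [← hs2, ← hs2', f0, f1, e2, f3]
    have fall : ∀ j, nn o v a b j = nn o v' a' b' j := by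
      intro j
      obtain ⟨r, rfl⟩ := τ.surjective j
      fin_cases r
      · exact f0
      · exact f1
      · exact e2
      · exact f3
    have fa : a = a' := by simpa [nn] using fall 2
    have fb : b = b' := by simpa [nn] using fall 3
    subst fv fa fb
    rfl
  · rintro ⟨⟨⟨k, v⟩, ⟨a, b⟩⟩, ⟨y0, y1⟩⟩ hp
    simp only [mem_sigma, mem_product, hQ, mem_Ico] at hp
    obtain ⟨⟨hN, ha, hb⟩, hy0, hy1⟩ := hp
    have hk1 : 1 ≤ k := (hW _ hN).1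
    have hkk : k - 1 + 1 = k := by omega
    have hz0 := mem_ivm.1 hy0
    have hz1 := mem_ivm.1 hy1
    obtain ⟨hs1, hs2⟩ := nn_perm o v a b τ
    have hc : cz o k y0 y1 - nn o v a b (τ 2) = nn o v a b (τ 3) := by
      unfold cz; rw [hz0, hz1]; linarith
    simp only [hkk, hc]
    exact le_rfl
  · intro p _
    exact mul_nonneg (by positivity) (bx_nonneg _ _ _ _ _ _ _ _ _ _)

end

end Vale.Agent.P141.H606
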