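import Vale.Agent.P141.H606.Roots
import Vale.Agent.P141.H935.Slot
import Vale.Agent.P141.H75.SpT

/-!
# P141, line W, end lemma (T_ker): the hypotheses of a fibre from the letters of the region

* `reg2_slot`: `H606.Reg2` for a block slot cut by the used cells;
* `FibC`: what has to be known about the components of one fibre;
* `fibOK_of`: `FibOK` from `FibC`;
* `tker_rgn`: the number of the kernel part on a region.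
-/

namespace Vale.Agent.P141.H606

open Finset
open Vale.Agent.P141.PL.H855 (wN TT)
open Vale.Agent.P141.PL (hs tri)
open Vale.Agent.P141.PL.H315 (avg)
open Vale.Agent.P141.PL.H571 (W)
open Vale.Agent.P141.PL.H95 (gr mem_gr card_gr gr_cube)
open Vale.Agent.P141.H315 (Grid dot)
open Vale.Agent.P141.H347 (cd)
open Vale.Agent.P141.H8 (Rgn Lab Fam2 tops)
open Vale.Agent.P141.H337 (ivm mem_ivm card_ivm sum_long av2 cel card_cel ms)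
open Vale.Agent.P141.H911
open Vale.Agent.P141.H935 (Xs Ys Vs Ts Xz_slot Yz_slot)

noncomputable section

open scoped Classical

variable {Ω : Type*} {s : ℤ} {gd ud : ℕ → ℤ → Prop} {K : ℕ} {xt : ℤ} {t : ℕ → ℤ → ℕ}

theorem mem_cel_of {k K : ℕ} {m b : ℤ} (h : m / 2 ^ (K - k) = b) : m ∈ cel K b k := by
  have h2 : (0 : ℤ) < 2 ^ (K - k) := by positivity
  have h3 := Int.mul_ediv_add_emod m (2 ^ (K - k))
  have h4 := Int.emod_nonneg m h2.ne'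
  have h5 := Int.emod_lt_of_pos m h2
  unfold cel
  rw [mem_Ico, ← h]
  constructor
  · linarith
  · rw [mul_add]; linarith

/-- **The hypotheses of `Reg2` for a block slot.** -/
theorem reg2_slot {F : ℕ → ℤ → ℝ} {y0 sg b0 : ℤ} {e : ℝ} (hR : Rgn (gr 7 s) gd K xt ud)
    (hl : Lab (gr 7 s) K t)
    (hen : ∀ k y, ud k y → dot ((gr 7 s).cube k y) (F (t k y)) (F (t k y)) ≤
      e * cd (gr 7 s) k y) (he : 0 ≤ e) (hs0 : sg ≠ 0) (hsg : |sg| ≤ 3)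
    {L : ℝ} (hL0 : 0 ≤ L) {c : Ω → ℤ → ℝ} {A : ℕ → ℤ → Finset Ω}
    (hL : ∀ k ≤ K, ∀ b, (∃ u ∈ ivm k b, ud k (y0 + sg * u)) → ms c (A k b) (ivm k b) ≤ L) :
    Reg2 (512 * e) L c A (Xs ud t F y0 sg) (fun k => hs k) K b0 (Vs ud y0 sg K b0)
      (Ts ud t y0 sg K b0) where
  e0 := by positivity
  L0 := hL0
  hh := H935.hh_hs K b0
  off k _ b hb hV := H935.Xs_off hb hV
  hX k _ b _ _ := (H935.avg_en hR hl hen he hs0 hsg k b).trans (by linarith)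
  hX' k _ b _ := H935.avg_en' hR hl hen he hs0 hsg k b
  hT k hk b hb hT := H935.Xs_touch hR hl le_rfl hk hb hT
  hV k hk b hb hV := by
    unfold Vs at hV ⊢
    obtain ⟨_, u, hu, h1⟩ := mem_filter.1 hV
    exact mem_filter.2 ⟨cel_parent hk hb, u, ivm_child hu, hR.up k hk _ h1⟩
  hL k hk b _ hV := by
    unfold Vs at hV
    exact hL k hk b (mem_filter.1 hV).2

/-- **The components of one fibre.**  `hL2`, `hL3`: the masses on the cells which meet a used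
point. -/
structure FibC (σ : Equiv.Perm (Fin 4)) (o : ℤ) (K : ℕ) (𝒲 : Finset (ℕ × ℤ))
    (ud : ℕ → ℤ → Prop) (Kr : ℕ → ℤ → ℤ → ℤ → ℤ → ℝ) (τ L : ℝ) (x0 x1 : ℤ) (d : FibD Ω) :
    Prop where
  kern : ∀ k, 1 ≤ k → k ≤ K → ∀ n ∈ Uf σ o 𝒲 x0 x1 k, ∀ x2 ∈ ivm k n,
    ∀ x3 ∈ ivm k (qf o x0 x1 k n), Kr k x0 x1 x2 x3 = kS (d.act k n) d.a d.b x2 x3
  ha : ∀ k, 1 ≤ k → k ≤ K → ∀ n ∈ Uf σ o 𝒲 x0 x1 k, d.act k n ⊆ d.A2 k n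
  hb : ∀ k, 1 ≤ k → k ≤ K → ∀ n ∈ Uf σ o 𝒲 x0 x1 k, d.act k n ⊆ d.A3 k (qf o x0 x1 k n)
  hop : ∀ k, 1 ≤ k → k ≤ K → ∀ n ∈ Uf σ o 𝒲 x0 x1 k, ∀ p r : ℤ → ℝ,
    |av2 (ivm k n) (ivm k (qf o x0 x1 k n)) (fun x2 x3 =>
      p x2 * kS (d.act k n) d.a d.b x2 x3 * r x3)| ≤
      τ * Real.sqrt (avg (ivm k n) fun x => p x ^ 2) *
        Real.sqrt (avg (ivm k (qf o x0 x1 k n)) fun x => r x ^ 2)
  hL2 : ∀ k ≤ K, ∀ b, (∃ u ∈ ivm k b, ud k (dd σ 3 0 * x0 + dd σ 3 1 * x1 + dd σ 3 2 * u)) →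
    ms d.a (d.A2 k b) (ivm k b) ≤ L
  hL3 : ∀ k ≤ K, ∀ b, (∃ u ∈ ivm k b, ud k (dd σ 2 0 * x0 + dd σ 2 1 * x1 + dd σ 2 3 * u)) →
    ms d.b (d.A3 k b) (ivm k b) ≤ L

/-- The used nodes. -/
structure Nod (s : ℤ) (ud : ℕ → ℤ → Prop) (K : ℕ) (le : ℕ × ℤ → ℤ) (𝒲 : Finset (ℕ × ℤ)) :
    Prop where
  one : ∀ N ∈ 𝒲, 1 ≤ N.1
  sub : ∀ N ∈ 𝒲, W N.1 N.2 ⊆ (gr 7 s).cube N.1 (le N)
  use : ∀ N ∈ 𝒲, ud N.1 (le N)

/-- the left end of the top cell -/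
def al (s : ℤ) (K : ℕ) (xt : ℤ) : ℤ := 2 ^ (K + 7) * ((xt + s) / 2 ^ (K + 7)) - s

theorem Nod.al_ok {le : ℕ × ℤ → ℤ} {𝒲 : Finset (ℕ × ℤ)} (h : Nod s ud K le 𝒲)
    (hR : Rgn (gr 7 s) gd K xt ud) : ∀ N ∈ 𝒲, al s K xt ≤ 2 ^ N.1 * N.2 ∧
      2 ^ N.1 * N.2 < al s K xt + 2 ^ (K + 7) := by
  intro N hN
  have h1 := hR.bel _ _ (h.use N hN)
  have h2 : 2 ^ N.1 * N.2 ∈ W N.1 N.2 := by
    unfold W
    have hp : (0 : ℤ) < 2 ^ N.1 := by positivity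
    rw [mem_Ico]
    constructor <;> nlinarith
  have h3 := (gr 7 s).cube_subset h1.1 h1.2 (h.sub N hN h2)
  rw [gr_cube, mem_Ico] at h3
  exact h3

theorem Nod.le_K {le : ℕ × ℤ → ℤ} {𝒲 : Finset (ℕ × ℤ)} (h : Nod s ud K le 𝒲)
    (hR : Rgn (gr 7 s) gd K xt ud) : ∀ N ∈ 𝒲, 1 ≤ N.1 ∧ N.1 ≤ K := fun N hN =>
  ⟨h.one N hN, (hR.bel _ _ (h.use N hN)).1⟩

/-- the forms of a used box are used -/
theorem Nod.form {le : ℕ × ℤ → ℤ} {𝒲 : Finset (ℕ × ℤ)} (h : Nod s ud K le 𝒲)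
    (hR : Rgn (gr 7 s) gd K xt ud) {o : ℤ} (ho : o = 1 ∨ o = -1) (σ : Equiv.Perm (Fin 4))
    {k : ℕ} {m0 m1 n x0 x1 x2 x3 : ℤ} (hn : (k, vz σ o m0 m1 n) ∈ 𝒲) (h0 : x0 ∈ ivm k m0)
    (h1 : x1 ∈ ivm k m1) (h2 : x2 ∈ ivm k n) (h3 : x3 ∈ ivm k (qz o m0 m1 n)) (j : Fin 4) :
    elp σ j ![x0, x1, x2, x3] ∈ (gr 7 s).cube k (le (k, vz σ o m0 m1 n)) ∧
      ud k (elp σ j ![x0, x1, x2, x3]) := by
  have h4 := h.sub _ hn (H75.form_mem_W σ ho h0 h1 h2 h3 j)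
  exact ⟨h4, (hR.const k _ _ h4).2 (h.use _ hn)⟩

/-- **`FibOK` from the components.** -/
theorem fibOK_of {σ : Equiv.Perm (Fin 4)} {o : ℤ} (ho : o = 1 ∨ o = -1)
    {le : ℕ × ℤ → ℤ} {𝒲 : Finset (ℕ × ℤ)} (hR : Rgn (gr 7 s) gd K xt ud)
    (hW : Nod s ud K le 𝒲) (hl : Lab (gr 7 s) K t) {F2 F3 : ℕ → ℤ → ℝ} {e τ L : ℝ}
    (he : 0 ≤ e) (hL : 0 ≤ L)
    (hen2 : ∀ k y, ud k y → dot ((gr 7 s).cube k y) (F2 (t k y)) (F2 (t k y)) ≤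
      e * cd (gr 7 s) k y)
    (hen3 : ∀ k y, ud k y → dot ((gr 7 s).cube k y) (F3 (t k y)) (F3 (t k y)) ≤
      e * cd (gr 7 s) k y)
    {A : Fin 4 → ℕ → ℤ → ℝ} (hA2 : ∀ k, A (σ 2) k = Ys ud t F2 k)
    (hA3 : ∀ k, A (σ 3) k = Ys ud t F3 k) {Kr : ℕ → ℤ → ℤ → ℤ → ℤ → ℝ} {x0 x1 : ℤ}
    {d : FibD Ω} (H : FibC σ o K 𝒲 ud Kr τ L x0 x1 d) :
    FibOK σ o K 𝒲 A Kr τ (512 * e) L x0 x1 (RB K (dd σ 3 2) (bt2 σ (al s K xt) x0 x1))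
      (RB K (dd σ 2 3) (bt3 σ (al s K xt) x0 x1))
      (fun b => Vs ud (dd σ 3 0 * x0 + dd σ 3 1 * x1) (dd σ 3 2) K b)
      (fun b => Vs ud (dd σ 2 0 * x0 + dd σ 2 1 * x1) (dd σ 2 3) K b)
      (fun b => Ts ud t (dd σ 3 0 * x0 + dd σ 3 1 * x1) (dd σ 3 2) K b)
      (fun b => Ts ud t (dd σ 2 0 * x0 + dd σ 2 1 * x1) (dd σ 2 3) K b) d := by
  have hpt : ∀ (k : ℕ) (m : ℤ), 2 ^ k * m ∈ ivm k m := fun k m => by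
    rw [mem_ivm]; exact Int.mul_ediv_cancel_left _ (by positivity)
  have hx : ∀ (k : ℕ) (x : ℤ), x ∈ ivm k (x / 2 ^ k) := fun k x => mem_ivm.2 rfl
  refine ⟨?_, ?_, ?_, ?_, H.kern, H.ha, H.hb, H.hop, ?_, ?_⟩
  · exact fun k _ hk n hn => root2_mem ho (hW.al_ok hR) x0 x1 hk hn
  · exact fun k _ hk n hn => root3_mem ho (hW.al_ok hR) x0 x1 hk hn
  · intro k _ hk n hn
    have h1 := (hW.form hR ho σ (mem_vk.1 (mem_Uz.1 hn)) (hx k x0) (hx k x1) (hpt k n)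
      (hpt k _) 3).2
    have e1 : elp σ 3 ![x0, x1, 2 ^ k * n, 2 ^ k * qz o (x0 / 2 ^ k) (x1 / 2 ^ k) n] =
        dd σ 3 0 * x0 + dd σ 3 1 * x1 + dd σ 3 2 * (2 ^ k * n) := by
      simp [elp, dd, Fin.sum_univ_four]
    rw [e1] at h1
    exact mem_filter.2 ⟨mem_cel_of rfl, _, hpt k n, h1⟩
  · intro k _ hk n hn
    have h1 := (hW.form hR ho σ (mem_vk.1 (mem_Uz.1 hn)) (hx k x0) (hx k x1) (hpt k n)
      (hpt k _) 2).2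
    have e1 : elp σ 2 ![x0, x1, 2 ^ k * n, 2 ^ k * qz o (x0 / 2 ^ k) (x1 / 2 ^ k) n] =
        dd σ 2 0 * x0 + dd σ 2 1 * x1 + dd σ 2 3 * (2 ^ k * qf o x0 x1 k n) := by
      simp [elp, dd, qf, Fin.sum_univ_four]
    rw [e1] at h1
    exact mem_filter.2 ⟨mem_cel_of rfl, _, hpt k _, h1⟩
  · intro b _
    have h1 : (fun (k : ℕ) x2 => Yz σ (fun s => A s k) x0 x1 x2) =
        Xs ud t F3 (dd σ 3 0 * x0 + dd σ 3 1 * x1) (dd σ 3 2) := by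
      funext k x2
      exact Yz_slot (hA3 k) x0 x1 x2
    rw [h1]
    exact reg2_slot hR hl hen3 he (dd_ne σ (by decide)) (dd_abs_le σ 3 2) hL H.hL2
  · intro b _
    have h1 : (fun (k : ℕ) x3 => Xz σ (fun s => A s k) x0 x1 x3) =
        Xs ud t F2 (dd σ 2 0 * x0 + dd σ 2 1 * x1) (dd σ 2 3) := by
      funext k x3
      exact Xz_slot (hA2 k) x0 x1 x3
    rw [h1]
    exact reg2_slot hR hl hen2 he (dd_ne σ (by decide)) (dd_abs_le σ 2 3) hL H.hL3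

theorem sum_TC_le {Kp : ℝ} (hR : Rgn (gr 7 s) gd K xt ud) (hl : Lab (gr 7 s) K t)
    (hp : tops (gr 7 s) ud t K xt ≤ Kp * cd (gr 7 s) K xt) {y0 sg : ℤ} (hs0 : sg ≠ 0)
    (d β : ℤ) (hKp : 0 ≤ Kp) :
    ∑ b ∈ RB K d β, TC (Ts ud t y0 sg K b) K b ≤ 40192 * (Kp + 1) * 2 ^ K := by
  have h1 : ∀ b ∈ RB K d β, TC (Ts ud t y0 sg K b) K b ≤ 256 * (Kp + 1) * 2 ^ K := by
    intro b _
    have h2 := H935.TC_le (b0 := b) (y0 := y0) hR hl hs0 le_rfl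
    have h3 : cd (gr 7 s) K xt = 2 ^ (K + 7) := by
      unfold cd; rw [card_gr]; push_cast; ring
    rw [h3] at h2 hp
    rw [pow_add] at h2 hp
    refine h2.trans ?_
    have h4 : (2 : ℝ) ^ 7 = 128 := by norm_num
    rw [h4] at hp ⊢
    linarith
  refine (sum_le_card_nsmul _ _ _ h1).trans ?_
  rw [nsmul_eq_mul]
  have h2 := card_RB_le K d β
  have h3 : 0 ≤ 256 * (Kp + 1) * 2 ^ K := by positivity
  calc ((RB K d β).card : ℝ) * (256 * (Kp + 1) * 2 ^ K) ≤ 157 * (256 * (Kp + 1) * 2 ^ K) :=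
        mul_le_mul_of_nonneg_right h2 h3
    _ = _ := by ring

/-- **The number of the kernel part on a region.** -/
theorem tker_rgn {σ : Equiv.Perm (Fin 4)} {o : ℤ} (ho : o = 1 ∨ o = -1)
    {le : ℕ × ℤ → ℤ} {𝒲 : Finset (ℕ × ℤ)} (hR : Rgn (gr 7 s) gd K xt ud) (hx : ud K xt)
    (hW : Nod s ud K le 𝒲) {F : Fin 2 → ℕ → ℤ → ℝ} {ε e Kp τ L D : ℝ}
    (hF : Fam2 (gr 7 s) ud K t F e Kp) (hε : 0 < ε) (hτ : 0 ≤ τ) (he : 0 ≤ e) (hL : 0 ≤ L)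
    (hKp : 0 ≤ Kp) {A : Fin 4 → ℕ → ℤ → ℝ} (hA2 : ∀ k, A (σ 2) k = Ys ud t (F 0) k)
    (hA3 : ∀ k, A (σ 3) k = Ys ud t (F 1) k) {Kr : ℕ → ℤ → ℤ → ℤ → ℤ → ℝ}
    (d : ℤ → ℤ → FibD Ω)
    (H : ∀ x0 ∈ Ico (0 : ℤ) (6 * 2 ^ K), ∀ x1 ∈ Ico (0 : ℤ) (6 * 2 ^ K),
      FibC σ o K 𝒲 ud Kr τ L x0 x1 (d x0 x1))
    (hD2 : ∑ x0 ∈ Ico (0 : ℤ) (6 * 2 ^ K), ∑ x1 ∈ Ico (0 : ℤ) (6 * 2 ^ K),
      ∑ b ∈ RB K (dd σ 3 2) (bt2 σ (al s K xt) x0 x1), DR (d x0 x1).a (d x0 x1).A2 K b ≤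
        D * 2 ^ K * (36 * 4 ^ K))
    (hD3 : ∑ x0 ∈ Ico (0 : ℤ) (6 * 2 ^ K), ∑ x1 ∈ Ico (0 : ℤ) (6 * 2 ^ K),
      ∑ b ∈ RB K (dd σ 2 3) (bt3 σ (al s K xt) x0 x1), DR (d x0 x1).b (d x0 x1).A3 K b ≤
        D * 2 ^ K * (36 * 4 ^ K)) :
    (36 * (4 : ℝ) ^ K)⁻¹ * ∑ x0 ∈ Ico (0 : ℤ) (6 * 2 ^ K), ∑ x1 ∈ Ico (0 : ℤ) (6 * 2 ^ K),
      KP σ o K 𝒲 A Kr x0 x1 ≤ TN ε τ (512 * e) L 157 (40192 * (Kp + 1)) D * 2 ^ K := by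
  have hp := hF.pack K xt hx
  refine tker (B2 := fun x0 x1 => RB K (dd σ 3 2) (bt2 σ (al s K xt) x0 x1))
    (B3 := fun x0 x1 => RB K (dd σ 2 3) (bt3 σ (al s K xt) x0 x1))
    (V2 := fun x0 x1 b => Vs ud (dd σ 3 0 * x0 + dd σ 3 1 * x1) (dd σ 3 2) K b)
    (V3 := fun x0 x1 b => Vs ud (dd σ 2 0 * x0 + dd σ 2 1 * x1) (dd σ 2 3) K b)
    (T2 := fun x0 x1 b => Ts ud t (dd σ 3 0 * x0 + dd σ 3 1 * x1) (dd σ 3 2) K b)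
    (T3 := fun x0 x1 b => Ts ud t (dd σ 2 0 * x0 + dd σ 2 1 * x1) (dd σ 2 3) K b)
    (d := d) hε hτ (by positivity) hL (by norm_num) ?_ ?_ ?_ ?_ ?_ hD2 hD3
  · exact fun x0 h0 x1 h1 => fibOK_of ho hR hW hF.lab he hL (hF.en 0) (hF.en 1) hA2 hA3
      (H x0 h0 x1 h1)
  · exact fun x0 x1 => card_RB_le _ _ _
  · exact fun x0 x1 => card_RB_le _ _ _
  · exact fun x0 _ x1 _ => sum_TC_le hR hF.lab hp (dd_ne σ (by decide)) _ _ hKp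
  · exact fun x0 _ x1 _ => sum_TC_le hR hF.lab hp (dd_ne σ (by decide)) _ _ hKp

end

end Vale.Agent.P141.H606
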