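import Vale.Agent.P141.H337.Ridge3

/-!
# P141, line W, end lemma (E-AG): the sum over the boxes of one fibre

`x0`, `x1` are fixed.  On the box with indices `(n, q k n)` of scale `k` the kernel is the sum of
the components of the set `act k n`; `A2 k n` and `A3 k m` are the components which are alive on
the one dimensional cells.

* `fib_gen`: the sum over the used boxes from abstract bounds of the two square functions;
* `fib_le`: the sum over the used boxes is bounded by the operator norm times the two square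
  functions of `tree_bessel`.
-/

namespace Vale.Agent.P141.H606

open Finset Vale.Agent.P141.PL.H315 Vale.Agent.P141.H337

noncomputable section

variable {Ω : Type*} [Fintype Ω]

/-- The dropped mass of a tree. -/
def DR [DecidableEq Ω] (c : Ω → ℤ → ℝ) (A : ℕ → ℤ → Finset Ω) (K : ℕ) (b0 : ℤ) : ℝ :=
  ∑ k ∈ range K, ∑ b ∈ cel K b0 k, 2 ^ k * dm c A k b

/-- The measure of the touched cells of a tree. -/
def TC (T : ℕ → Finset ℤ) (K : ℕ) (b0 : ℤ) : ℝ :=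
  ∑ k ∈ range K, ∑ _b ∈ (cel K b0 k).filter (· ∈ T k), 2 ^ k

/-- The bound of `tree_bessel`. -/
def TB (ε e L : ℝ) (K : ℕ) (t d : ℝ) : ℝ :=
  e * (2 ^ K + t + (1 + L / ε) / ε * d + 2 * (ε ^ 2)⁻¹ * (2 ^ K * L ^ 2 + 2 * L * d))

/-- The hypotheses of `tree_bessel` for one variable. -/
structure Tree1 [DecidableEq Ω] (e L : ℝ) (c : Ω → ℤ → ℝ) (A : ℕ → ℤ → Finset Ω)
    (X h : ℕ → ℤ → ℝ) (K : ℕ) (b0 : ℤ) (T : ℕ → Finset ℤ) : Prop where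
  e0 : 0 ≤ e
  hh : ∀ k < K, ∀ b ∈ cel K b0 (k + 1), (∀ x ∈ ivm k (2 * b), h (k + 1) x = 1) ∧
    ∀ x ∈ ivm k (2 * b + 1), h (k + 1) x = -1
  hX : ∀ k ≤ K, ∀ b ∈ cel K b0 k, avg (ivm k b) (fun x => X k x ^ 2) ≤ e
  hX' : ∀ k < K, ∀ b ∈ cel K b0 k, avg (ivm k b) (fun x => X (k + 1) x ^ 2) ≤ e
  hT : ∀ k < K, ∀ b ∈ cel K b0 k, b ∉ T k → ∀ x ∈ ivm k b, X (k + 1) x = X k x
  hL : ∀ k ≤ K, ∀ b ∈ cel K b0 k, ms c (A k b) (ivm k b) ≤ L
  hL' : ∀ k < K, ∀ b ∈ cel K b0 k, ms c (A (k + 1) (b / 2)) (ivm k b) ≤ L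

theorem Tree1.bessel [DecidableEq Ω] {ε e L : ℝ} (hε : 0 < ε) {c : Ω → ℤ → ℝ}
    {A : ℕ → ℤ → Finset Ω} {X h : ℕ → ℤ → ℝ} {K : ℕ} {b0 : ℤ} {T : ℕ → Finset ℤ}
    (H : Tree1 e L c A X h K b0 T) :
    ∑ k ∈ range K, ∑ b ∈ cel K b0 (k + 1),
      2 ^ k * Rg ε (cr (A (k + 1) b) c) (fun x => h (k + 1) x * X (k + 1) x) (ivm (k + 1) b) ≤
      TB ε e L K (TC T K b0) (DR c A K b0) :=
  tree_bessel hε H.e0 c A X h T H.hh H.hX H.hX' H.hT H.hL H.hL'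

theorem TB_mono {ε e L : ℝ} (hε : 0 < ε) (he : 0 ≤ e) (hL : 0 ≤ L) {K : ℕ} {t t' d d' : ℝ}
    (ht : t ≤ t') (hd : d ≤ d') : TB ε e L K t d ≤ TB ε e L K t' d' := by
  unfold TB
  have h1 : 0 ≤ (1 + L / ε) / ε := by positivity
  have h2 : 0 ≤ 2 * (ε ^ 2)⁻¹ := by positivity
  gcongr

/-- The sum over the boxes of one fibre, for abstract bounds of the two square functions. -/
theorem fib_gen {ε τ L2 L3 S2 S3 : ℝ} (hε : 0 < ε) (hτ : 0 ≤ τ)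
    {a b : Ω → ℤ → ℝ} {A2 A3 : ℕ → ℤ → Finset Ω} {Y X h2 h3 : ℕ → ℤ → ℝ} {K : ℕ} {b2 b3 : ℤ}
    {U : ℕ → Finset ℤ} {q : ℕ → ℤ → ℤ}
    (hL2 : ∀ k < K, ∀ n ∈ U (k + 1), ms a (A2 (k + 1) n) (ivm (k + 1) n) ≤ L2)
    (hL3 : ∀ k < K, ∀ n ∈ U (k + 1),
      ms b (A3 (k + 1) (q (k + 1) n)) (ivm (k + 1) (q (k + 1) n)) ≤ L3)
    (act : ℕ → ℤ → Finset Ω)
    (hq : ∀ k, Set.InjOn (q k) (U k))
    (hU2 : ∀ k < K, ∀ n ∈ U (k + 1), n ∈ cel K b2 (k + 1))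
    (hU3 : ∀ k < K, ∀ n ∈ U (k + 1), q (k + 1) n ∈ cel K b3 (k + 1))
    (ha : ∀ k < K, ∀ n ∈ U (k + 1), act (k + 1) n ⊆ A2 (k + 1) n)
    (hb : ∀ k < K, ∀ n ∈ U (k + 1), act (k + 1) n ⊆ A3 (k + 1) (q (k + 1) n))
    (hop : ∀ k < K, ∀ n ∈ U (k + 1), ∀ p r : ℤ → ℝ,
      |av2 (ivm (k + 1) n) (ivm (k + 1) (q (k + 1) n)) (fun x2 x3 =>
        p x2 * ker (cr (act (k + 1) n) a) (cr (act (k + 1) n) b) x2 x3 * r x3)| ≤
      τ * Real.sqrt (avg (ivm (k + 1) n) fun x => p x ^ 2) *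
        Real.sqrt (avg (ivm (k + 1) (q (k + 1) n)) fun x => r x ^ 2))
    (bY : ∑ k ∈ range K, ∑ n ∈ cel K b2 (k + 1),
      2 ^ k * Rg ε (cr (A2 (k + 1) n) a) (fun x => h2 (k + 1) x * Y (k + 1) x)
        (ivm (k + 1) n) ≤ S2)
    (bX : ∑ k ∈ range K, ∑ n ∈ cel K b3 (k + 1),
      2 ^ k * Rg ε (cr (A3 (k + 1) n) b) (fun x => h3 (k + 1) x * X (k + 1) x)
        (ivm (k + 1) n) ≤ S3) :
    ∑ k ∈ range K, ∑ n ∈ U (k + 1), 2 ^ k *
      |av2 (ivm (k + 1) n) (ivm (k + 1) (q (k + 1) n)) (fun x2 x3 =>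
        (h2 (k + 1) x2 * Y (k + 1) x2) *
          ker (cr (act (k + 1) n) a) (cr (act (k + 1) n) b) x2 x3 *
          (h3 (k + 1) x3 * X (k + 1) x3))| ≤
      (τ + Real.sqrt (ε * L2) + Real.sqrt (ε * L3) + ε) *
        (Real.sqrt S2 * Real.sqrt S3) := by
  classical
  set κ : ℝ := τ + Real.sqrt (ε * L2) + Real.sqrt (ε * L3) + ε with hκ
  have hκ0 : 0 ≤ κ := by positivity
  set RY : ℕ → ℤ → ℝ := fun k n =>
    Rg ε (cr (A2 (k + 1) n) a) (fun x => h2 (k + 1) x * Y (k + 1) x) (ivm (k + 1) n) with hRY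
  set RX : ℕ → ℤ → ℝ := fun k m =>
    Rg ε (cr (A3 (k + 1) m) b) (fun x => h3 (k + 1) x * X (k + 1) x) (ivm (k + 1) m) with hRX
  have hRY0 : ∀ k n, 0 ≤ RY k n := fun k n => Rg_nonneg hε _ _ _
  have hRX0 : ∀ k n, 0 ≤ RX k n := fun k n => Rg_nonneg hε _ _ _
  -- one box
  have hbox : ∀ k < K, ∀ n ∈ U (k + 1),
      |av2 (ivm (k + 1) n) (ivm (k + 1) (q (k + 1) n)) (fun x2 x3 =>
        (h2 (k + 1) x2 * Y (k + 1) x2) *
          ker (cr (act (k + 1) n) a) (cr (act (k + 1) n) b) x2 x3 *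
          (h3 (k + 1) x3 * X (k + 1) x3))| ≤
      κ * (Real.sqrt (RY k n) * Real.sqrt (RX k (q (k + 1) n))) := by
    intro k hk n hn
    have m2 : ∑ i, avg (ivm (k + 1) n) (fun x => cr (act (k + 1) n) a i x ^ 2) ≤ L2 := by
      rw [sum_cr_sq]
      refine le_trans ?_ (hL2 k hk n hn)
      unfold ms
      exact sum_le_sum_of_subset_of_nonneg (ha k hk n hn) fun _ _ _ =>
        avg_nonneg fun _ _ => sq_nonneg _
    have m3 : ∑ i, avg (ivm (k + 1) (q (k + 1) n)) (fun x => cr (act (k + 1) n) b i x ^ 2) ≤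
        L3 := by
      rw [sum_cr_sq]
      refine le_trans ?_ (hL3 k hk n hn)
      unfold ms
      exact sum_le_sum_of_subset_of_nonneg (hb k hk n hn) fun _ _ _ =>
        avg_nonneg fun _ _ => sq_nonneg _
    have h1 := box_le (τ := τ) hε (cr (act (k + 1) n) a) (cr (act (k + 1) n) b)
      (fun x => h2 (k + 1) x * Y (k + 1) x) (fun x => h3 (k + 1) x * X (k + 1) x)
      (ivm (k + 1) n) (ivm (k + 1) (q (k + 1) n)) (La := L2) (Lb := L3) ?_ m2 m3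
    · refine h1.trans (mul_le_mul_of_nonneg_left ?_ hκ0)
      refine mul_le_mul (Real.sqrt_le_sqrt ?_) (Real.sqrt_le_sqrt ?_) (Real.sqrt_nonneg _)
        (Real.sqrt_nonneg _)
      · exact Rg_mono hε a _ _ (ha k hk n hn)
      · exact Rg_mono hε b _ _ (hb k hk n hn)
    · intro p r
      refine (hop k hk n hn _ _).trans ?_
      have s1 : 0 ≤ ε * n2 p := mul_nonneg hε.le (n2_nonneg _)
      have s2 : 0 ≤ ε * n2 r := mul_nonneg hε.le (n2_nonneg _)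
      have := Real.sqrt_le_sqrt (le_add_of_nonneg_right (a := avg (ivm (k + 1) n) fun x =>
        cf (cr (act (k + 1) n) a) p x ^ 2) s1)
      have := Real.sqrt_le_sqrt (le_add_of_nonneg_right (a := avg (ivm (k + 1) (q (k + 1) n))
        fun x => cf (cr (act (k + 1) n) b) r x ^ 2) s2)
      gcongr
  -- Cauchy-Schwarz
  have hS2 : ∑ k ∈ range K, ∑ n ∈ U (k + 1), (2 : ℝ) ^ k * RY k n ≤
      S2 := by
    refine le_trans (sum_le_sum fun k hk => ?_) bY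
    exact sum_le_sum_of_subset_of_nonneg (fun n hn => hU2 k (mem_range.1 hk) n hn)
      fun n _ _ => mul_nonneg (by positivity) (hRY0 k n)
  have hS3 : ∑ k ∈ range K, ∑ n ∈ U (k + 1), (2 : ℝ) ^ k * RX k (q (k + 1) n) ≤
      S3 := by
    refine le_trans (sum_le_sum fun k hk => ?_) bX
    have e1 : ∑ n ∈ U (k + 1), (2 : ℝ) ^ k * RX k (q (k + 1) n) =
        ∑ m ∈ (U (k + 1)).image (q (k + 1)), (2 : ℝ) ^ k * RX k m := by
      rw [sum_image fun x hx y hy h => hq (k + 1) hx hy h]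
    rw [e1]
    refine sum_le_sum_of_subset_of_nonneg ?_ fun n _ _ => mul_nonneg (by positivity) (hRX0 k n)
    intro m hm
    obtain ⟨n, hn, rfl⟩ := mem_image.1 hm
    exact hU3 k (mem_range.1 hk) n hn
  have hCS : (∑ k ∈ range K, ∑ n ∈ U (k + 1), (2 : ℝ) ^ k *
      (Real.sqrt (RY k n) * Real.sqrt (RX k (q (k + 1) n)))) ≤
      Real.sqrt (∑ k ∈ range K, ∑ n ∈ U (k + 1), (2 : ℝ) ^ k * RY k n) *
        Real.sqrt (∑ k ∈ range K, ∑ n ∈ U (k + 1), (2 : ℝ) ^ k * RX k (q (k + 1) n)) := by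
    rw [sum_sigma', sum_sigma', sum_sigma',
      ← Real.sqrt_mul (sum_nonneg fun s _ => mul_nonneg (by positivity) (hRY0 _ _))]
    refine Real.le_sqrt_of_sq_le ?_
    have h1 := sum_mul_sq_le_sq_mul_sq ((range K).sigma fun k => U (k + 1))
      (fun s => Real.sqrt (2 ^ s.1 * RY s.1 s.2))
      (fun s => Real.sqrt (2 ^ s.1 * RX s.1 (q (s.1 + 1) s.2)))
    have e1 : ∀ s : (_ : ℕ) × ℤ, Real.sqrt (2 ^ s.1 * RY s.1 s.2) *
        Real.sqrt (2 ^ s.1 * RX s.1 (q (s.1 + 1) s.2)) =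
        2 ^ s.1 * (Real.sqrt (RY s.1 s.2) * Real.sqrt (RX s.1 (q (s.1 + 1) s.2))) := by
      intro s
      have p2 : (0 : ℝ) ≤ 2 ^ s.1 := by positivity
      rw [Real.sqrt_mul p2, Real.sqrt_mul p2]
      have := Real.mul_self_sqrt p2
      linear_combination (Real.sqrt (RY s.1 s.2) * Real.sqrt (RX s.1 (q (s.1 + 1) s.2))) * this
    have e2 : ∀ s : (_ : ℕ) × ℤ, Real.sqrt (2 ^ s.1 * RY s.1 s.2) ^ 2 = 2 ^ s.1 * RY s.1 s.2 :=
      fun s => Real.sq_sqrt (mul_nonneg (by positivity) (hRY0 _ _))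
    have e3 : ∀ s : (_ : ℕ) × ℤ, Real.sqrt (2 ^ s.1 * RX s.1 (q (s.1 + 1) s.2)) ^ 2 =
        2 ^ s.1 * RX s.1 (q (s.1 + 1) s.2) :=
      fun s => Real.sq_sqrt (mul_nonneg (by positivity) (hRX0 _ _))
    simp only [e1, e2, e3] at h1
    exact h1
  calc _ ≤ ∑ k ∈ range K, ∑ n ∈ U (k + 1), (2 : ℝ) ^ k *
        (κ * (Real.sqrt (RY k n) * Real.sqrt (RX k (q (k + 1) n)))) :=
        sum_le_sum fun k hk => sum_le_sum fun n hn =>
          mul_le_mul_of_nonneg_left (hbox k (mem_range.1 hk) n hn) (by positivity)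
    _ = κ * ∑ k ∈ range K, ∑ n ∈ U (k + 1), (2 : ℝ) ^ k *
        (Real.sqrt (RY k n) * Real.sqrt (RX k (q (k + 1) n))) := by
        rw [mul_sum]
        refine sum_congr rfl fun k _ => ?_
        rw [mul_sum]
        exact sum_congr rfl fun n _ => by ring
    _ ≤ κ * (Real.sqrt (∑ k ∈ range K, ∑ n ∈ U (k + 1), (2 : ℝ) ^ k * RY k n) *
        Real.sqrt (∑ k ∈ range K, ∑ n ∈ U (k + 1), (2 : ℝ) ^ k * RX k (q (k + 1) n))) :=
        mul_le_mul_of_nonneg_left hCS hκ0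
    _ ≤ _ := by
        refine mul_le_mul_of_nonneg_left ?_ hκ0
        exact mul_le_mul (Real.sqrt_le_sqrt hS2) (Real.sqrt_le_sqrt hS3) (Real.sqrt_nonneg _)
          (Real.sqrt_nonneg _)

/-- **The sum over the boxes of one fibre.** -/
theorem fib_le [DecidableEq Ω] {ε τ e2 e3 L2 L3 : ℝ} (hε : 0 < ε) (hτ : 0 ≤ τ)
    {a b : Ω → ℤ → ℝ} {A2 A3 : ℕ → ℤ → Finset Ω} {Y X h2 h3 : ℕ → ℤ → ℝ} {K : ℕ} {b2 b3 : ℤ}
    {T2 T3 : ℕ → Finset ℤ} (H2 : Tree1 e2 L2 a A2 Y h2 K b2 T2)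
    (H3 : Tree1 e3 L3 b A3 X h3 K b3 T3)
    (act : ℕ → ℤ → Finset Ω) (q : ℕ → ℤ → ℤ) (U : ℕ → Finset ℤ)
    (hq : ∀ k, Set.InjOn (q k) (U k))
    (hU2 : ∀ k < K, ∀ n ∈ U (k + 1), n ∈ cel K b2 (k + 1))
    (hU3 : ∀ k < K, ∀ n ∈ U (k + 1), q (k + 1) n ∈ cel K b3 (k + 1))
    (ha : ∀ k < K, ∀ n ∈ U (k + 1), act (k + 1) n ⊆ A2 (k + 1) n)
    (hb : ∀ k < K, ∀ n ∈ U (k + 1), act (k + 1) n ⊆ A3 (k + 1) (q (k + 1) n))
    (hop : ∀ k < K, ∀ n ∈ U (k + 1), ∀ p r : ℤ → ℝ,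
      |av2 (ivm (k + 1) n) (ivm (k + 1) (q (k + 1) n)) (fun x2 x3 =>
        p x2 * ker (cr (act (k + 1) n) a) (cr (act (k + 1) n) b) x2 x3 * r x3)| ≤
      τ * Real.sqrt (avg (ivm (k + 1) n) fun x => p x ^ 2) *
        Real.sqrt (avg (ivm (k + 1) (q (k + 1) n)) fun x => r x ^ 2)) :
    ∑ k ∈ range K, ∑ n ∈ U (k + 1), 2 ^ k *
      |av2 (ivm (k + 1) n) (ivm (k + 1) (q (k + 1) n)) (fun x2 x3 =>
        (h2 (k + 1) x2 * Y (k + 1) x2) *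
          ker (cr (act (k + 1) n) a) (cr (act (k + 1) n) b) x2 x3 *
          (h3 (k + 1) x3 * X (k + 1) x3))| ≤
      (τ + Real.sqrt (ε * L2) + Real.sqrt (ε * L3) + ε) *
        (Real.sqrt (TB ε e2 L2 K (TC T2 K b2) (DR a A2 K b2)) *
          Real.sqrt (TB ε e3 L3 K (TC T3 K b3) (DR b A3 K b3))) :=
  fib_gen hε hτ (fun k hk n hn => H2.hL (k + 1) hk n (hU2 k hk n hn))
    (fun k hk n hn => H3.hL (k + 1) hk _ (hU3 k hk n hn)) act hq hU2 hU3 ha hb hop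
    (H2.bessel hε) (H3.bessel hε)

end

end Vale.Agent.P141.H606
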