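import Vale.Agent.P141.H606.Fib

/-!
# P141, line W, end lemma (E-AG): one fibre, arbitrary type of components

`fib_sub`: `fib_le` for an arbitrary index type; the kernel on a box is the finite sum over the
active components.
-/

namespace Vale.Agent.P141.H606

open Finset Vale.Agent.P141.PL.H315 Vale.Agent.P141.H337

noncomputable section

variable {Ω : Type*}

/-- the kernel of a finite set of components -/
def kS (A : Finset Ω) (a b : Ω → ℤ → ℝ) (x2 x3 : ℤ) : ℝ := ∑ i ∈ A, a i x2 * b i x3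

theorem ker_cr [Fintype Ω] (A : Finset Ω) (a b : Ω → ℤ → ℝ) (x2 x3 : ℤ) :
    ker (cr A a) (cr A b) x2 x3 = kS A a b x2 x3 := by
  classical
  unfold ker kS
  have h : ∀ i, cr A a i x2 * cr A b i x3 = if i ∈ A then a i x2 * b i x3 else 0 := by
    intro i
    split_ifs with hi
    · rw [cr_mem a hi, cr_mem b hi]
    · rw [cr_not_mem a hi, zero_mul]
  rw [sum_congr rfl fun i _ => h i, sum_ite_mem, univ_inter]

/-- restriction to a finite subtype -/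
def rs [DecidableEq Ω] (S A : Finset Ω) : Finset ↥S := A.subtype (· ∈ S)

theorem ms_rs_le [DecidableEq Ω] (S A : Finset Ω) (a : Ω → ℤ → ℝ) (J : Finset ℤ) :
    ms (fun i : ↥S => a i) (rs S A) J ≤ ms a A J := by
  unfold ms rs
  rw [sum_subtype_eq_sum_filter (f := fun i => avg J fun x => a i x ^ 2)]
  exact sum_le_sum_of_subset_of_nonneg (filter_subset _ _) fun _ _ _ =>
    avg_nonneg fun _ _ => sq_nonneg _

theorem kS_rs [DecidableEq Ω] {S A : Finset Ω} (h : A ⊆ S) (a b : Ω → ℤ → ℝ) (x2 x3 : ℤ) :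
    kS (rs S A) (fun i : ↥S => a i) (fun i : ↥S => b i) x2 x3 = kS A a b x2 x3 := by
  unfold kS rs
  rw [sum_subtype_eq_sum_filter (f := fun i => a i x2 * b i x3), filter_true_of_mem fun i hi => h hi]

theorem rs_sdiff [DecidableEq Ω] (S A B : Finset Ω) : rs S A \ rs S B = rs S (A \ B) := by
  ext i
  simp only [rs, mem_sdiff, mem_subtype]

theorem rs_mono [DecidableEq Ω] (S : Finset Ω) {A B : Finset Ω} (h : A ⊆ B) : rs S A ⊆ rs S B := by
  intro i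
  simp only [rs, mem_subtype]
  exact fun hi => h hi

theorem dm_rs_le [DecidableEq Ω] (S : Finset Ω) (A : ℕ → ℤ → Finset Ω) (a : Ω → ℤ → ℝ) (k : ℕ)
    (b : ℤ) : dm (fun i : ↥S => a i) (fun k n => rs S (A k n)) k b ≤ dm a A k b := by
  unfold dm
  simp only [rs_sdiff]
  exact ms_rs_le S _ a _

theorem DR_rs_le [DecidableEq Ω] (S : Finset Ω) (A : ℕ → ℤ → Finset Ω) (a : Ω → ℤ → ℝ) (K : ℕ)
    (b0 : ℤ) : DR (fun i : ↥S => a i) (fun k n => rs S (A k n)) K b0 ≤ DR a A K b0 :=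
  sum_le_sum fun _ _ => sum_le_sum fun _ _ =>
    mul_le_mul_of_nonneg_left (dm_rs_le S A a _ _) (by positivity)

theorem DR_nonneg [DecidableEq Ω] (a : Ω → ℤ → ℝ) (A : ℕ → ℤ → Finset Ω) (K : ℕ) (b0 : ℤ) :
    0 ≤ DR a A K b0 :=
  sum_nonneg fun _ _ => sum_nonneg fun _ _ => mul_nonneg (by positivity) (ms_nonneg _ _ _)

theorem Tree1.rs [DecidableEq Ω] {e L : ℝ} {c : Ω → ℤ → ℝ} {A : ℕ → ℤ → Finset Ω}
    {X h : ℕ → ℤ → ℝ} {K : ℕ} {b0 : ℤ} {T : ℕ → Finset ℤ} (H : Tree1 e L c A X h K b0 T)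
    (S : Finset Ω) :
    Tree1 e L (fun i : ↥S => c i) (fun k n => rs S (A k n)) X h K b0 T where
  e0 := H.e0
  hh := H.hh
  hX := H.hX
  hX' := H.hX'
  hT := H.hT
  hL k hk b hb := (ms_rs_le S _ c _).trans (H.hL k hk b hb)
  hL' k hk b hb := (ms_rs_le S _ c _).trans (H.hL' k hk b hb)

/-- **The sum over the boxes of one fibre, arbitrary index type.** -/
theorem fib_sub [DecidableEq Ω] {ε τ e2 e3 L2 L3 : ℝ} (hε : 0 < ε) (hτ : 0 ≤ τ) (hL2 : 0 ≤ L2)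
    (hL3 : 0 ≤ L3)
    {a b : Ω → ℤ → ℝ} {A2 A3 : ℕ → ℤ → Finset Ω} {Y X h2 h3 : ℕ → ℤ → ℝ} {K : ℕ} {b2 b3 : ℤ}
    {T2 T3 : ℕ → Finset ℤ} (H2 : Tree1 e2 L2 a A2 Y h2 K b2 T2)
    (H3 : Tree1 e3 L3 b A3 X h3 K b3 T3)
    (act : ℕ → ℤ → Finset Ω) (q : ℕ → ℤ → ℤ) (U : ℕ → Finset ℤ)
    (hq : ∀ k, Set.InjOn (q k) (U k))
    (hU2 : ∀ k < K, ∀ n ∈ U (k + 1), n ∈ cel K b2 (k + 1))
    (hU3 : ∀ k < K, ∀ n ∈ U (k + 1), q (k + 1) n ∈ cel K b3 (k + 1))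
    (ha : ∀ k < K, ∀ n ∈ U (k + 1), act (k + 1) n ⊆ A2 (k + 1) n)
    (hb : ∀ k < K, ∀ n ∈ U (k + 1), act (k + 1) n ⊆ A3 (k + 1) (q (k + 1) n))
    (hop : ∀ k < K, ∀ n ∈ U (k + 1), ∀ p r : ℤ → ℝ,
      |av2 (ivm (k + 1) n) (ivm (k + 1) (q (k + 1) n)) (fun x2 x3 =>
        p x2 * kS (act (k + 1) n) a b x2 x3 * r x3)| ≤
      τ * Real.sqrt (avg (ivm (k + 1) n) fun x => p x ^ 2) *
        Real.sqrt (avg (ivm (k + 1) (q (k + 1) n)) fun x => r x ^ 2)) :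
    ∑ k ∈ range K, ∑ n ∈ U (k + 1), 2 ^ k *
      |av2 (ivm (k + 1) n) (ivm (k + 1) (q (k + 1) n)) (fun x2 x3 =>
        (h2 (k + 1) x2 * Y (k + 1) x2) * kS (act (k + 1) n) a b x2 x3 *
          (h3 (k + 1) x3 * X (k + 1) x3))| ≤
      (τ + Real.sqrt (ε * L2) + Real.sqrt (ε * L3) + ε) *
        (Real.sqrt (TB ε e2 L2 K (TC T2 K b2) (DR a A2 K b2)) *
          Real.sqrt (TB ε e3 L3 K (TC T3 K b3) (DR b A3 K b3))) := by
  set S : Finset Ω := (range (K + 1)).biUnion fun k => (cel K b2 k).biUnion fun n => A2 k n with hS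
  have hsub : ∀ k < K, ∀ n ∈ U (k + 1), act (k + 1) n ⊆ S := by
    intro k hk n hn i hi
    rw [hS, mem_biUnion]
    refine ⟨k + 1, mem_range.2 (by omega), ?_⟩
    rw [mem_biUnion]
    exact ⟨n, hU2 k hk n hn, ha k hk n hn hi⟩
  have hk : ∀ k < K, ∀ n ∈ U (k + 1), ∀ x2 x3, kS (act (k + 1) n) a b x2 x3 =
      ker (cr (rs S (act (k + 1) n)) fun i : ↥S => a i)
        (cr (rs S (act (k + 1) n)) fun i : ↥S => b i) x2 x3 := by
    intro k hk n hn x2 x3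
    rw [ker_cr, kS_rs (hsub k hk n hn)]
  have h1 := fib_le hε hτ (H2.rs S) (H3.rs S) (fun k n => rs S (act k n)) q U hq hU2 hU3
    (fun k hk n hn => rs_mono S (ha k hk n hn)) (fun k hk n hn => rs_mono S (hb k hk n hn))
    (fun k hk' n hn p r => by
      have := hop k hk' n hn p r
      simp only [hk k hk' n hn] at this
      exact this)
  have e1 : ∑ k ∈ range K, ∑ n ∈ U (k + 1), (2 : ℝ) ^ k *
      |av2 (ivm (k + 1) n) (ivm (k + 1) (q (k + 1) n)) (fun x2 x3 =>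
        (h2 (k + 1) x2 * Y (k + 1) x2) * kS (act (k + 1) n) a b x2 x3 *
          (h3 (k + 1) x3 * X (k + 1) x3))| =
      ∑ k ∈ range K, ∑ n ∈ U (k + 1), (2 : ℝ) ^ k *
      |av2 (ivm (k + 1) n) (ivm (k + 1) (q (k + 1) n)) (fun x2 x3 =>
        (h2 (k + 1) x2 * Y (k + 1) x2) *
          ker (cr (rs S (act (k + 1) n)) fun i : ↥S => a i)
            (cr (rs S (act (k + 1) n)) fun i : ↥S => b i) x2 x3 *
          (h3 (k + 1) x3 * X (k + 1) x3))| := by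
    refine sum_congr rfl fun k hk' => sum_congr rfl fun n hn => ?_
    simp only [hk k (mem_range.1 hk') n hn]
  rw [e1]
  refine h1.trans (mul_le_mul_of_nonneg_left ?_ (by positivity))
  exact mul_le_mul
    (Real.sqrt_le_sqrt (TB_mono hε H2.e0 hL2 le_rfl (DR_rs_le S A2 a K b2)))
    (Real.sqrt_le_sqrt (TB_mono hε H3.e0 hL3 le_rfl (DR_rs_le S A3 b K b3)))
    (Real.sqrt_nonneg _) (Real.sqrt_nonneg _)

end

end Vale.Agent.P141.H606
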